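import Claimed.Agent.R286.SeqCalc

/-!
# Row 286 (S0533), unit SEQ, file 2: subsequences, ultrafilters, uniform statements      (helper298)

Paper free.   HOW TO TYPE "pass to a subsequence along which .. converge":

* every relation of file 1 (`=O[l]`, `=o[l]`, `AqPoly`, `AqSub`, `∀ᶠ`, `Tendsto`) holds along `l` iff it holds along every ULTRAFILTER `U ≤ l`
  (`aq_O_iff_ultra`, `aq_o_iff_ultra`, `aq_poly_iff_ultra`, `aq_sub_iff_ultra`, `aq_eventually_iff_ultra`, Mathlib's `tendsto_iff_ultrafilter`);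
* along an ultrafilter NOTHING has to be extracted: a family in a compact set converges (`aq_ultra_lim_compact`, `aq_ultra_lim_bdd`, `aq_ultra_lim_Icc`), a finite-valued family is constant
  (`aq_ultra_finite`), every alternative is decided (`Ultrafilter.em`), any two families are comparable (`aq_ultra_O_or_o`), a nonnegative family tends to `0` or stays `≥ c > 0` (`aq_ultra_zero_or_pos`).
* the same principles for genuine sequences (`l` countably generated): `aq_O_iff_seq`, .. and "every sequence has a subsequence along which .." : `aq_O_of_subseq`, ..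
* `aqUnif size H` = the filter "`size → ∞` within the class `H`": a relation along it IS the uniform statement `∃ K N₀, ∀ i, H i → N₀ ≤ size i → ..` (`aq_unif_O_iff`, ..).
-/

set_option autoImplicit false

namespace Claimed.Agent.R286

open Filter Topology Asymptotics

variable {ι : Type*} {l : Filter ι} {s : ι → ℝ} {A B : ι → ℝ}

/-! ## extraction along a decreasing family of frequent sets -/

theorem aq_neBot_of_frequently {S : ℕ → Set ι} (hS : Antitone S) (hf : ∀ n, ∃ᶠ i in l, i ∈ S n) :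
    (⨅ n, l ⊓ 𝓟 (S n)).NeBot := by
  refine iInf_neBot_of_directed' ?_ fun n => frequently_mem_iff_neBot.1 (hf n)
  have : Antitone fun n => l ⊓ 𝓟 (S n) := fun a b hab => inf_le_inf_left l (principal_mono.2 (hS hab))
  exact this.directed_ge

theorem aq_exists_ultra_of_frequently {S : ℕ → Set ι} (hS : Antitone S) (hf : ∀ n, ∃ᶠ i in l, i ∈ S n) :
    ∃ U : Ultrafilter ι, (U : Filter ι) ≤ l ∧ ∀ n, S n ∈ (U : Filter ι) := by
  have := aq_neBot_of_frequently hS hf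
  refine ⟨Ultrafilter.of (⨅ n, l ⊓ 𝓟 (S n)), ?_, fun n => ?_⟩
  · exact (Ultrafilter.of_le _).trans ((iInf_le _ 0).trans inf_le_left)
  · exact (Ultrafilter.of_le _).trans ((iInf_le _ n).trans inf_le_right) (mem_principal_self _)

theorem aq_exists_seq_of_frequently [l.IsCountablyGenerated] {S : ℕ → Set ι} (hS : Antitone S)
    (hf : ∀ n, ∃ᶠ i in l, i ∈ S n) :
    ∃ x : ℕ → ι, Tendsto x atTop l ∧ ∀ n, ∀ᶠ k in atTop, x k ∈ S n := by
  have := aq_neBot_of_frequently hS hf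
  obtain ⟨x, hx⟩ := exists_seq_tendsto (⨅ n, l ⊓ 𝓟 (S n))
  refine ⟨x, hx.mono_right ((iInf_le _ 0).trans inf_le_left), fun n => ?_⟩
  exact hx.mono_right ((iInf_le _ n).trans inf_le_right) (mem_principal_self _)

/-! ## the sets witnessing a failure -/

theorem aq_not_O_sets (hc : ¬ A =O[l] B) :
    ∃ S : ℕ → Set ι, Antitone S ∧ (∀ n, ∃ᶠ i in l, i ∈ S n) ∧
      ∀ l' : Filter ι, l'.NeBot → (∀ n, S n ∈ l') → ¬ A =O[l'] B := by
  refine ⟨fun n => {i | (n : ℝ) * ‖B i‖ < ‖A i‖}, ?_, ?_, ?_⟩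
  · intro n m hnm i hi
    have h1 : (n : ℝ) ≤ m := by exact_mod_cast hnm
    exact lt_of_le_of_lt (mul_le_mul_of_nonneg_right h1 (norm_nonneg _)) hi
  · intro n hn
    exact hc (IsBigO.of_bound n (hn.mono fun i hi => not_lt.1 hi))
  · intro l' hl' hS h
    obtain ⟨K, hK⟩ := isBigO_iff.1 h
    obtain ⟨n, hn⟩ := exists_nat_ge K
    obtain ⟨i, h1, h2⟩ := (hK.and (hS n)).exists
    have h3 : K * ‖B i‖ ≤ n * ‖B i‖ := mul_le_mul_of_nonneg_right hn (norm_nonneg _)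
    exact absurd (h1.trans h3) (not_le.2 h2)

theorem aq_not_poly_sets (hs : Tendsto s l atTop) (hc : ¬ AqPoly l s A B) :
    ∃ S : ℕ → Set ι, Antitone S ∧ (∀ n, ∃ᶠ i in l, i ∈ S n) ∧
      ∀ l' : Filter ι, l'.NeBot → (∀ n, S n ∈ l') → ¬ AqPoly l' s A B := by
  refine ⟨fun n => {i | (n : ℝ) * ‖s i ^ (-(1 / ((n : ℝ) + 1))) * B i‖ < ‖A i‖ ∧ 1 ≤ s i}, ?_, ?_, ?_⟩
  · intro n m hnm i hi
    refine ⟨lt_of_le_of_lt ?_ hi.1, hi.2⟩
    have h1 : (n : ℝ) ≤ m := by exact_mod_cast hnm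
    have h0 : (0 : ℝ) ≤ n := Nat.cast_nonneg n
    have h2 : s i ^ (-(1 / ((n : ℝ) + 1))) ≤ s i ^ (-(1 / ((m : ℝ) + 1))) := by
      apply Real.rpow_le_rpow_of_exponent_le hi.2
      apply neg_le_neg
      apply one_div_le_one_div_of_le (by positivity) (by linarith)
    have hpos : 0 < s i := lt_of_lt_of_le one_pos hi.2
    rw [norm_mul, norm_mul, Real.norm_of_nonneg (Real.rpow_nonneg hpos.le _),
      Real.norm_of_nonneg (Real.rpow_nonneg hpos.le _)]
    exact mul_le_mul h1 (mul_le_mul_of_nonneg_right h2 (norm_nonneg _))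
      (mul_nonneg (Real.rpow_nonneg hpos.le _) (norm_nonneg _)) (h0.trans h1)
  · intro n
    have h1 : ∃ᶠ i in l, (n : ℝ) * ‖s i ^ (-(1 / ((n : ℝ) + 1))) * B i‖ < ‖A i‖ := by
      intro hn
      exact hc ⟨1 / ((n : ℝ) + 1), by positivity, IsBigO.of_bound n (hn.mono fun i hi => not_lt.1 hi)⟩
    exact h1.and_eventually (aq_scale_ge hs 1)
  · rintro l' hl' hS ⟨c, hc, h⟩
    obtain ⟨K, hK⟩ := isBigO_iff.1 h
    obtain ⟨n, hn⟩ := exists_nat_ge (max K (1 / c))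
    obtain ⟨i, h1, h2, h3⟩ := (hK.and (hS n)).exists
    have hpos : 0 < s i := lt_of_lt_of_le one_pos h3
    have hn1 : K ≤ n := (le_max_left _ _).trans hn
    have hn2 : 1 / c ≤ n := (le_max_right _ _).trans hn
    have h0 : (0 : ℝ) ≤ n := Nat.cast_nonneg n
    have h4 : s i ^ (-c) ≤ s i ^ (-(1 / ((n : ℝ) + 1))) := by
      apply Real.rpow_le_rpow_of_exponent_le h3
      apply neg_le_neg
      rw [div_le_iff₀ (by positivity)]
      rw [div_le_iff₀ hc] at hn2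
      nlinarith
    have h5 : K * ‖s i ^ (-c) * B i‖ ≤ n * ‖s i ^ (-(1 / ((n : ℝ) + 1))) * B i‖ := by
      rw [norm_mul, norm_mul, Real.norm_of_nonneg (Real.rpow_nonneg hpos.le _),
        Real.norm_of_nonneg (Real.rpow_nonneg hpos.le _)]
      exact mul_le_mul hn1 (mul_le_mul_of_nonneg_right h4 (norm_nonneg _))
        (mul_nonneg (Real.rpow_nonneg hpos.le _) (norm_nonneg _)) h0
    exact absurd (h1.trans h5) (not_le.2 h2)

/-! ## ultrafilter principles -/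

theorem aq_eventually_iff_ultra {p : ι → Prop} :
    (∀ᶠ i in l, p i) ↔ ∀ U : Ultrafilter ι, (U : Filter ι) ≤ l → ∀ᶠ i in (U : Filter ι), p i :=
  mem_iff_ultrafilter

theorem aq_O_iff_ultra : A =O[l] B ↔ ∀ U : Ultrafilter ι, (U : Filter ι) ≤ l → A =O[(U : Filter ι)] B := by
  refine ⟨fun h U hU => h.mono hU, fun h => ?_⟩
  by_contra hc
  obtain ⟨S, hS, hf, hbad⟩ := aq_not_O_sets hc
  obtain ⟨U, hU, hSU⟩ := aq_exists_ultra_of_frequently hS hf
  exact hbad U U.neBot hSU (h U hU)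

theorem aq_o_iff_ultra : A =o[l] B ↔ ∀ U : Ultrafilter ι, (U : Filter ι) ≤ l → A =o[(U : Filter ι)] B := by
  refine ⟨fun h U hU => h.mono hU, fun h => ?_⟩
  rw [isLittleO_iff]
  intro c hc
  rw [aq_eventually_iff_ultra]
  exact fun U hU => (isLittleO_iff.1 (h U hU)) hc

theorem aq_poly_iff_ultra (hs : Tendsto s l atTop) :
    AqPoly l s A B ↔ ∀ U : Ultrafilter ι, (U : Filter ι) ≤ l → AqPoly (U : Filter ι) s A B := by
  refine ⟨fun h U hU => h.mono hU, fun h => ?_⟩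
  by_contra hc
  obtain ⟨S, hS, hf, hbad⟩ := aq_not_poly_sets hs hc
  obtain ⟨U, hU, hSU⟩ := aq_exists_ultra_of_frequently hS hf
  exact hbad U U.neBot hSU (h U hU)

theorem aq_sub_iff_ultra :
    AqSub l s A B ↔ ∀ U : Ultrafilter ι, (U : Filter ι) ≤ l → AqSub (U : Filter ι) s A B :=
  ⟨fun h _ hU => h.mono hU, fun h ε hε => aq_O_iff_ultra.2 fun U hU => h U hU ε hε⟩

/-! ## what is free along an ultrafilter -/

theorem aq_ultra_lim_compact {X : Type*} [TopologicalSpace X] {K : Set X} (hK : IsCompact K) (U : Ultrafilter ι)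
    {f : ι → X} (h : ∀ᶠ i in (U : Filter ι), f i ∈ K) : ∃ x ∈ K, Tendsto f (U : Filter ι) (𝓝 x) :=
  hK.ultrafilter_le_nhds (U.map f) (le_principal_iff.2 h)

theorem aq_ultra_lim_Icc (U : Ultrafilter ι) {f : ι → ℝ} {a b : ℝ} (h : ∀ᶠ i in (U : Filter ι), f i ∈ Set.Icc a b) :
    ∃ x ∈ Set.Icc a b, Tendsto f (U : Filter ι) (𝓝 x) :=
  aq_ultra_lim_compact isCompact_Icc U h

theorem aq_ultra_lim_bdd (U : Ultrafilter ι) {f : ι → ℝ} (h : f =O[(U : Filter ι)] fun _ => (1 : ℝ)) :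
    ∃ x : ℝ, Tendsto f (U : Filter ι) (𝓝 x) := by
  obtain ⟨K, hK⟩ := aq_O_one_iff.1 h
  obtain ⟨x, -, hx⟩ := aq_ultra_lim_Icc U (f := f) (a := -K) (b := K) (hK.mono fun i hi => abs_le.1 hi)
  exact ⟨x, hx⟩

theorem aq_ultra_finite {κ : Type*} [Finite κ] (U : Ultrafilter ι) (f : ι → κ) :
    ∃ k : κ, ∀ᶠ i in (U : Filter ι), f i = k := by
  classical
  by_contra hc
  have h1 : ∀ k : κ, ∀ᶠ i in (U : Filter ι), f i ≠ k :=
    fun k => (U.em fun i => f i = k).resolve_left fun hk => hc ⟨k, hk⟩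
  obtain ⟨i, hi⟩ := (eventually_all.2 h1).exists
  exact hi (f i) rfl

/-- any two families are comparable along an ultrafilter -/
theorem aq_ultra_O_or_o (U : Ultrafilter ι) (A B : ι → ℝ) : A =O[(U : Filter ι)] B ∨ B =o[(U : Filter ι)] A := by
  by_cases h : A =O[(U : Filter ι)] B
  · exact Or.inl h
  refine Or.inr (isLittleO_iff.2 fun ε hε => ?_)
  have h1 : ¬ ∀ᶠ i in (U : Filter ι), ‖A i‖ ≤ ε⁻¹ * ‖B i‖ := fun h' => h (IsBigO.of_bound _ h')
  filter_upwards [(U.em _).resolve_left h1] with i hi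
  rw [not_le, inv_mul_lt_iff₀ hε] at hi
  exact hi.le

/-- a nonnegative family tends to `0` or stays away from `0` -/
theorem aq_ultra_zero_or_pos (U : Ultrafilter ι) (f : ι → ℝ) :
    Tendsto f (U : Filter ι) (𝓝 0) ∨ ∃ c : ℝ, 0 < c ∧ ∀ᶠ i in (U : Filter ι), c ≤ |f i| := by
  rcases aq_ultra_O_or_o U (fun _ => (1 : ℝ)) f with h | h
  · right
    obtain ⟨K, hK, hb⟩ := h.exists_pos
    refine ⟨K⁻¹, inv_pos.2 hK, hb.bound.mono fun i hi => ?_⟩
    rw [norm_one, Real.norm_eq_abs] at hi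
    rw [inv_le_iff_one_le_mul₀ hK, mul_comm]
    exact hi
  · exact Or.inl (aq_o_one_iff.1 h)

/-- a real family converges, or tends to `+∞`, or to `-∞` -/
theorem aq_ultra_lim_or_infty (U : Ultrafilter ι) (f : ι → ℝ) :
    (∃ x : ℝ, Tendsto f (U : Filter ι) (𝓝 x)) ∨ Tendsto f (U : Filter ι) atTop ∨ Tendsto f (U : Filter ι) atBot := by
  rcases aq_ultra_O_or_o U f (fun _ => (1 : ℝ)) with h | h
  · exact Or.inl (aq_ultra_lim_bdd U h)
  right
  have habs : Tendsto (fun i => |f i|) (U : Filter ι) atTop := by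
    have := (isLittleO_one_left_iff ℝ).1 h
    simpa [Real.norm_eq_abs] using this
  rcases U.em fun i => 0 ≤ f i with h0 | h0
  · exact Or.inl (habs.congr' (h0.mono fun i hi => abs_of_nonneg hi))
  · refine Or.inr ?_
    have h1 : Tendsto (fun i => -|f i|) (U : Filter ι) atBot := tendsto_neg_atTop_atBot.comp habs
    exact h1.congr' (h0.mono fun i hi => by rw [abs_of_neg (not_le.1 hi), neg_neg])

/-! ## sequences -/

theorem aq_O_iff_seq [l.IsCountablyGenerated] :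
    A =O[l] B ↔ ∀ x : ℕ → ι, Tendsto x atTop l → (A ∘ x) =O[atTop] (B ∘ x) := by
  refine ⟨fun h x hx => h.comp_tendsto hx, fun h => ?_⟩
  by_contra hc
  obtain ⟨S, hS, hf, hbad⟩ := aq_not_O_sets hc
  obtain ⟨x, hx, hSx⟩ := aq_exists_seq_of_frequently hS hf
  exact hbad (map x atTop) inferInstance hSx (isBigO_map.2 (h x hx))

/-- "every sequence has a subsequence along which `A ≲ B`" -/
theorem aq_O_of_subseq [l.IsCountablyGenerated]
    (h : ∀ x : ℕ → ι, Tendsto x atTop l → ∃ ψ : ℕ → ℕ, Tendsto ψ atTop atTop ∧ (A ∘ x ∘ ψ) =O[atTop] (B ∘ x ∘ ψ)) :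
    A =O[l] B := by
  by_contra hc
  obtain ⟨S, hS, hf, hbad⟩ := aq_not_O_sets hc
  obtain ⟨x, hx, hSx⟩ := aq_exists_seq_of_frequently hS hf
  obtain ⟨ψ, hψ, hO⟩ := h x hx
  exact hbad (map (x ∘ ψ) atTop) inferInstance (fun n => hψ.eventually (hSx n)) (isBigO_map.2 hO)

theorem aq_poly_map {κ : Type*} {l' : Filter κ} {φ : κ → ι} :
    AqPoly (map φ l') s A B ↔ AqPoly l' (s ∘ φ) (A ∘ φ) (B ∘ φ) := by
  unfold AqPoly
  simp only [isBigO_map]
  rfl

theorem aq_sub_map {κ : Type*} {l' : Filter κ} {φ : κ → ι} :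
    AqSub (map φ l') s A B ↔ AqSub l' (s ∘ φ) (A ∘ φ) (B ∘ φ) := by
  unfold AqSub
  simp only [isBigO_map]
  rfl

theorem aq_poly_iff_seq [l.IsCountablyGenerated] (hs : Tendsto s l atTop) :
    AqPoly l s A B ↔ ∀ x : ℕ → ι, Tendsto x atTop l → AqPoly atTop (s ∘ x) (A ∘ x) (B ∘ x) := by
  refine ⟨fun h x hx => h.comp hx, fun h => ?_⟩
  by_contra hc
  obtain ⟨S, hS, hf, hbad⟩ := aq_not_poly_sets hs hc
  obtain ⟨x, hx, hSx⟩ := aq_exists_seq_of_frequently hS hf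
  exact hbad (map x atTop) inferInstance hSx (aq_poly_map.2 (h x hx))

theorem aq_poly_of_subseq [l.IsCountablyGenerated] (hs : Tendsto s l atTop)
    (h : ∀ x : ℕ → ι, Tendsto x atTop l → ∃ ψ : ℕ → ℕ, Tendsto ψ atTop atTop ∧
      AqPoly atTop (s ∘ x ∘ ψ) (A ∘ x ∘ ψ) (B ∘ x ∘ ψ)) :
    AqPoly l s A B := by
  by_contra hc
  obtain ⟨S, hS, hf, hbad⟩ := aq_not_poly_sets hs hc
  obtain ⟨x, hx, hSx⟩ := aq_exists_seq_of_frequently hS hf
  obtain ⟨ψ, hψ, hO⟩ := h x hx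
  exact hbad (map (x ∘ ψ) atTop) inferInstance (fun n => hψ.eventually (hSx n)) (aq_poly_map.2 hO)

theorem aq_sub_iff_seq [l.IsCountablyGenerated] :
    AqSub l s A B ↔ ∀ x : ℕ → ι, Tendsto x atTop l → AqSub atTop (s ∘ x) (A ∘ x) (B ∘ x) :=
  ⟨fun h _ hx => h.comp hx, fun h ε hε => aq_O_iff_seq.2 fun x hx => h x hx ε hε⟩

theorem aq_sub_of_subseq [l.IsCountablyGenerated]
    (h : ∀ x : ℕ → ι, Tendsto x atTop l → ∃ ψ : ℕ → ℕ, Tendsto ψ atTop atTop ∧
      AqSub atTop (s ∘ x ∘ ψ) (A ∘ x ∘ ψ) (B ∘ x ∘ ψ)) :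
    AqSub l s A B :=
  fun ε hε => aq_O_of_subseq fun x hx => (h x hx).imp fun _ h => ⟨h.1, h.2 ε hε⟩

theorem aq_eventually_of_subseq [l.IsCountablyGenerated] {p : ι → Prop}
    (h : ∀ x : ℕ → ι, Tendsto x atTop l → ∃ ψ : ℕ → ℕ, Tendsto ψ atTop atTop ∧ ∀ᶠ k in atTop, p (x (ψ k))) :
    ∀ᶠ i in l, p i := by
  by_contra hc
  obtain ⟨x, hx, hSx⟩ := aq_exists_seq_of_frequently (l := l) (S := fun _ => {i | ¬ p i}) (fun _ _ _ => le_rfl)
    (fun _ => not_eventually.1 hc)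
  obtain ⟨ψ, hψ, hp⟩ := h x hx
  obtain ⟨k, h1, h2⟩ := (hp.and (hψ.eventually (hSx 0))).exists
  exact h2 h1

theorem aq_o_iff_seq [l.IsCountablyGenerated] :
    A =o[l] B ↔ ∀ x : ℕ → ι, Tendsto x atTop l → (A ∘ x) =o[atTop] (B ∘ x) := by
  refine ⟨fun h x hx => h.comp_tendsto hx, fun h => isLittleO_iff.2 fun c hc => ?_⟩
  rw [eventually_iff_seq_eventually]
  exact fun x hx => (isLittleO_iff.1 (h x hx)) hc

theorem aq_o_of_subseq [l.IsCountablyGenerated]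
    (h : ∀ x : ℕ → ι, Tendsto x atTop l → ∃ ψ : ℕ → ℕ, Tendsto ψ atTop atTop ∧ (A ∘ x ∘ ψ) =o[atTop] (B ∘ x ∘ ψ)) :
    A =o[l] B :=
  isLittleO_iff.2 fun _ hc => aq_eventually_of_subseq fun x hx =>
    (h x hx).imp fun _ h => ⟨h.1, (isLittleO_iff.1 h.2) hc⟩

/-! ## uniform statements -/

/-- the filter "`size → ∞` inside the class `H`" -/
def aqUnif (size : ι → ℝ) (H : ι → Prop) : Filter ι := comap size atTop ⊓ 𝓟 {i | H i}

variable {size : ι → ℝ} {H : ι → Prop}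

instance aqUnif_countable (size : ι → ℝ) (H : ι → Prop) : (aqUnif size H).IsCountablyGenerated := by
  unfold aqUnif; infer_instance

theorem aq_unif_eventually {p : ι → Prop} :
    (∀ᶠ i in aqUnif size H, p i) ↔ ∃ N₀ : ℝ, ∀ i, H i → N₀ ≤ size i → p i := by
  unfold aqUnif
  rw [eventually_inf_principal, eventually_comap, eventually_atTop]
  constructor
  · rintro ⟨N₀, h⟩
    exact ⟨N₀, fun i hH hi => h (size i) hi i rfl hH⟩
  · rintro ⟨N₀, h⟩
    exact ⟨N₀, fun b hb i hi hH => h i hH (hi ▸ hb)⟩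

theorem aq_unif_tendsto (size : ι → ℝ) (H : ι → Prop) : Tendsto size (aqUnif size H) atTop :=
  tendsto_comap.mono_left inf_le_left

theorem aq_unif_mem (size : ι → ℝ) (H : ι → Prop) : ∀ᶠ i in aqUnif size H, H i :=
  aq_unif_eventually.2 ⟨0, fun _ h _ => h⟩

theorem aq_unif_tendsto_iff {κ : Type*} {l' : Filter κ} {x : κ → ι} :
    Tendsto x l' (aqUnif size H) ↔ Tendsto (size ∘ x) l' atTop ∧ ∀ᶠ k in l', H (x k) := by
  unfold aqUnif
  rw [tendsto_inf, tendsto_comap_iff, tendsto_principal]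
  rfl

theorem aq_unif_O_iff :
    A =O[aqUnif size H] B ↔ ∃ K N₀ : ℝ, ∀ i, H i → N₀ ≤ size i → |A i| ≤ K * |B i| := by
  rw [isBigO_iff]
  simp only [aq_unif_eventually, Real.norm_eq_abs]

theorem aq_unif_o_iff :
    A =o[aqUnif size H] B ↔ ∀ ε : ℝ, 0 < ε → ∃ N₀ : ℝ, ∀ i, H i → N₀ ≤ size i → |A i| ≤ ε * |B i| := by
  rw [isLittleO_iff]
  simp only [aq_unif_eventually, Real.norm_eq_abs]

theorem aq_unif_poly_iff :
    AqPoly (aqUnif size H) s A B ↔
      ∃ c : ℝ, 0 < c ∧ ∃ K N₀ : ℝ, ∀ i, H i → N₀ ≤ size i → |A i| ≤ K * |s i ^ (-c) * B i| := by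
  unfold AqPoly
  simp only [aq_unif_O_iff]

theorem aq_unif_sub_iff :
    AqSub (aqUnif size H) s A B ↔
      ∀ ε : ℝ, 0 < ε → ∃ K N₀ : ℝ, ∀ i, H i → N₀ ≤ size i → |A i| ≤ K * |s i ^ ε * B i| := by
  unfold AqSub
  simp only [aq_unif_O_iff]

/-- the uniform statement follows from the statement along all sequences of instances of the class -/
theorem aq_unif_O_of_seq
    (h : ∀ x : ℕ → ι, Tendsto (size ∘ x) atTop atTop → (∀ k, H (x k)) → (A ∘ x) =O[atTop] (B ∘ x)) :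
    ∃ K N₀ : ℝ, ∀ i, H i → N₀ ≤ size i → |A i| ≤ K * |B i| := by
  rw [← aq_unif_O_iff]
  by_cases hne : ∃ i₀, H i₀
  · obtain ⟨i₀, hi₀⟩ := hne
    classical
    refine aq_O_iff_seq.2 fun x hx => ?_
    obtain ⟨h1, h2⟩ := aq_unif_tendsto_iff.1 hx
    have h3 := h (fun k => if H (x k) then x k else i₀)
      (h1.congr' (h2.mono fun k hk => by simp [hk]))
      (fun k => by by_cases hk : H (x k) <;> simp [hk, hi₀])
    exact h3.congr' (h2.mono fun k hk => by simp [hk]) (h2.mono fun k hk => by simp [hk])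
  · exact aq_unif_O_iff.2 ⟨0, 0, fun i hi => absurd ⟨i, hi⟩ hne⟩

end Claimed.Agent.R286
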