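import Claimed.Agent.R286.SeqCalc
import Claimed.Agent.R286.SeqUltra

/-!
# Row 286 (S0533): THE ASYMPTOTIC VOCABULARY      (OWNER helper19, deputy helper298; prefix `as_`, types `As*`)

ONE VOCABULARY, TWO DIALECTS.   `Aq*` (helper298, `R286/SeqCalc.lean`, `R286/SeqUltra.lean`): LARGE scale `s → +∞` (PE: `s = n`).   `As*` (this file): SMALL scale `x → 0+` (LL: `x = N^(-1/6)`).
Both are thin layers over Mathlib's `=O[l]`;  BRIDGE (last section): `as_scale_iff_aq`, `as_sub_iff_aq`, `as_pow_iff_aq` (`s = x⁻¹`), `as_U_eq_aq`.   NEW here: exponents `AsExp` (algebra, `as_ultra_exp`), the frame `asU D`, closed forms `as_*_U_iff`.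
RULE FOR ARCHITECTS: type every `≲`, `≲_∘`, "power small", `x^(e+o(1))` with these relations (or in the closed forms on the right of `as_O_U_iff`, `as_sub_U_iff`, `as_pow_U_iff`, which are EQUIVALENT); never invent a third form.

ONE language for `≲`, `≲_∘` ("subpower loss"), "power small", `x^(e + o(1))`, "for `N` large, uniformly in `m`, the path point, `γ`".
Everything is stated for a GENERAL index type `α`, a filter `l` on `α` and a SCALE `x : α → ℝ` (`AsScale l x`: eventually positive, tends to `0`).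

## The relations                                                  (`A B : α → ℝ`)
* `A =O[l] B`, `A =o[l] B`, `A =Θ[l] B`      Mathlib (`≲`, `≪`, `≍`).      Closed form: `as_O_iff`.
* `AsSub l x A B`      `A ≲_∘ B`:  for EVERY `ε > 0`,  `A =O[l] x^(-ε) B`.
* `AsPow l x A B`      `A` is smaller than `B` by a POWER:  for SOME `c > 0`,  `A =O[l] x^c B`.
* `AsExp l x A e`      `A = x^(e + o(1))`:  for every `ε > 0` eventually `x^(e+ε) ≤ A ≤ x^(e-ε)`.
## The three frames
* (U) `asU D`          filter on `ℕ × ι`:  `N → ∞`, UNIFORMLY in the points `i` of the domain `D N i`.      `as_U_eventually`: `∃ N0, ∀ N ≥ N0, ∀ i, D N i → ..`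
* (S) sequences of instances `s : ℕ → ℕ × ι` in the domain with `N_k → ∞`, along `atTop`.
* (V) the same along an arbitrary ultrafilter `V ≤ atTop` (frame D1 of helper142).
TRANSFER: `as_U_iff_seq`, `as_atTop_iff_ultra`, `as_O_U_iff_seq`, `as_O_iff_ultra` (and the corollaries for `AsSub`).
## Along an ultrafilter
`as_ultra_dich` (`A =O B` or `B =o A`), `as_ultra_lim` (a bounded sequence converges), `as_ultra_exp` (a polynomially bounded positive sequence HAS an exponent).
-/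

set_option autoImplicit false

namespace Claimed.Agent.R286

open Filter Asymptotics Topology

variable {α : Type*} {l : Filter α} {x : α → ℝ}

/-- **a scale**: eventually positive, tends to `0` -/
structure AsScale (l : Filter α) (x : α → ℝ) : Prop where
  pos : ∀ᶠ k in l, 0 < x k
  lim : Tendsto x l (𝓝 0)

/-- `A ≲_∘ B`: subpower loss -/
def AsSub (l : Filter α) (x A B : α → ℝ) : Prop := ∀ ε : ℝ, 0 < ε → A =O[l] fun k => x k ^ (-ε) * B k

/-- `A` is smaller than `B` by a power of the scale -/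
def AsPow (l : Filter α) (x A B : α → ℝ) : Prop := ∃ c : ℝ, 0 < c ∧ A =O[l] fun k => x k ^ c * B k

/-- `A = x^(e + o(1))` -/
def AsExp (l : Filter α) (x A : α → ℝ) (e : ℝ) : Prop := ∀ ε : ℝ, 0 < ε → ∀ᶠ k in l, x k ^ (e + ε) ≤ A k ∧ A k ≤ x k ^ (e - ε)

theorem as_eqns_cite : True := by
  have := @AsSub.eq_1.{0}
  have := @AsPow.eq_1.{0}
  have := @AsExp.eq_1.{0}
  trivial

/-! ## closed forms -/

theorem as_O_iff {A B : α → ℝ} : A =O[l] B ↔ ∃ C : ℝ, ∀ᶠ k in l, |A k| ≤ C * |B k| := by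
  simp only [isBigO_iff, Real.norm_eq_abs]

/-- with a POSITIVE constant -/
theorem as_O_iff_pos {A B : α → ℝ} : A =O[l] B ↔ ∃ C : ℝ, 0 < C ∧ ∀ᶠ k in l, |A k| ≤ C * |B k| := by
  simp only [isBigO_iff', Real.norm_eq_abs, gt_iff_lt]

namespace AsScale

theorem lt_one (h : AsScale l x) : ∀ᶠ k in l, x k < 1 := h.lim.eventually (gt_mem_nhds one_pos)

theorem lt_of_pos (h : AsScale l x) {δ : ℝ} (hδ : 0 < δ) : ∀ᶠ k in l, x k < δ := h.lim.eventually (gt_mem_nhds hδ)

/-- `x^c → 0` for `c > 0` -/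
theorem rpow_lim (h : AsScale l x) {c : ℝ} (hc : 0 < c) : Tendsto (fun k => x k ^ c) l (𝓝 0) := by
  have := (Real.continuousAt_rpow_const 0 c (Or.inr hc.le)).tendsto.comp h.lim
  simpa [Real.zero_rpow hc.ne', Function.comp_def] using this

/-- a positive power of a scale is a scale -/
theorem rpow (h : AsScale l x) {c : ℝ} (hc : 0 < c) : AsScale l (fun k => x k ^ c) :=
  ⟨h.pos.mono fun _ hk => Real.rpow_pos_of_pos hk _, h.rpow_lim hc⟩

/-- monotonicity of the powers of the scale -/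
theorem rpow_le (h : AsScale l x) {a b : ℝ} (hab : a ≤ b) : ∀ᶠ k in l, x k ^ b ≤ x k ^ a := by
  filter_upwards [h.pos, h.lt_one] with k h0 h1
  exact Real.rpow_le_rpow_of_exponent_ge h0 h1.le hab

theorem rpow_isBigO (h : AsScale l x) {a b : ℝ} (hab : a ≤ b) : (fun k => x k ^ b) =O[l] fun k => x k ^ a := by
  refine IsBigO.of_bound 1 ?_
  filter_upwards [h.pos, h.rpow_le hab] with k h0 h1
  rw [Real.norm_eq_abs, Real.norm_eq_abs, abs_of_pos (Real.rpow_pos_of_pos h0 _), abs_of_pos (Real.rpow_pos_of_pos h0 _), one_mul]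
  exact h1

/-- a constant is absorbed by a negative power -/
theorem const_le (h : AsScale l x) (C : ℝ) {ε : ℝ} (hε : 0 < ε) : ∀ᶠ k in l, C ≤ x k ^ (-ε) := by
  have h1 : Tendsto (fun k => x k ^ ε) l (𝓝[>] 0) :=
    tendsto_nhdsWithin_iff.2 ⟨h.rpow_lim hε, h.pos.mono fun _ hk => Real.rpow_pos_of_pos hk _⟩
  have h2 : Tendsto (fun k => (x k ^ ε)⁻¹) l atTop := tendsto_inv_nhdsGT_zero.comp h1
  filter_upwards [h2.eventually_ge_atTop C, h.pos] with k hk h0
  rwa [Real.rpow_neg h0.le]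

theorem one_isBigO (h : AsScale l x) {ε : ℝ} (hε : 0 ≤ ε) : (fun _ => (1 : ℝ)) =O[l] fun k => x k ^ (-ε) := by
  have := h.rpow_isBigO (a := -ε) (b := 0) (by linarith)
  simpa using this

end AsScale

/-! ## `AsSub` -/

theorem as_sub_iff {A B : α → ℝ} : AsSub l x A B ↔ ∀ ε : ℝ, 0 < ε → ∃ C : ℝ, ∀ᶠ k in l, |A k| ≤ C * |x k ^ (-ε) * B k| := by
  simp only [AsSub, as_O_iff]

/-- closed form on a scale -/
theorem as_sub_iff' (h : AsScale l x) {A B : α → ℝ} :
    AsSub l x A B ↔ ∀ ε : ℝ, 0 < ε → ∃ C : ℝ, ∀ᶠ k in l, |A k| ≤ C * x k ^ (-ε) * |B k| := by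
  rw [as_sub_iff]
  refine forall_congr' fun ε => imp_congr_right fun _ => exists_congr fun C => ?_
  refine eventually_congr (h.pos.mono fun k hk => ?_)
  rw [abs_mul, abs_of_pos (Real.rpow_pos_of_pos hk _), mul_assoc]

theorem as_mul_rpow_isBigO (h : AsScale l x) {a b : ℝ} (hab : a ≤ b) (B : α → ℝ) :
    (fun k => x k ^ b * B k) =O[l] fun k => x k ^ a * B k := (h.rpow_isBigO hab).mul (isBigO_refl B l)

theorem as_rpow_mul_rpow (h : AsScale l x) (a b : ℝ) (B : α → ℝ) :
    (fun k => x k ^ a * (x k ^ b * B k)) =ᶠ[l] fun k => x k ^ (a + b) * B k :=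
  h.pos.mono fun k hk => by simp only [Real.rpow_add hk, mul_assoc]

theorem IsBigO_asSub (h : AsScale l x) {A B : α → ℝ} (hAB : A =O[l] B) : AsSub l x A B := fun ε hε => by
  have := (h.one_isBigO hε.le).mul hAB
  simpa using this

namespace AsSub

variable {A B C A' B' : α → ℝ}

theorem refl (h : AsScale l x) (A : α → ℝ) : AsSub l x A A := IsBigO_asSub h (isBigO_refl A l)

theorem trans (h : AsScale l x) (h1 : AsSub l x A B) (h2 : AsSub l x B C) : AsSub l x A C := fun ε hε => by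
  have e1 := h1 (ε / 2) (half_pos hε)
  have e2 := (isBigO_refl (fun k => x k ^ (-(ε / 2))) l).mul (h2 (ε / 2) (half_pos hε))
  refine (e1.trans e2).trans_eventuallyEq ((as_rpow_mul_rpow h _ _ C).trans (Eventually.of_forall fun k => ?_))
  simp only
  congr 2
  ring

theorem trans_isBigO (h1 : AsSub l x A B) (h2 : B =O[l] C) : AsSub l x A C := fun ε hε =>
  (h1 ε hε).trans ((isBigO_refl _ l).mul h2)

theorem of_isBigO_trans (h1 : A =O[l] B) (h2 : AsSub l x B C) : AsSub l x A C := fun ε hε => h1.trans (h2 ε hε)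

theorem add (h1 : AsSub l x A B) (h2 : AsSub l x A' B) : AsSub l x (fun k => A k + A' k) B := fun ε hε => (h1 ε hε).add (h2 ε hε)

theorem sub (h1 : AsSub l x A B) (h2 : AsSub l x A' B) : AsSub l x (fun k => A k - A' k) B := fun ε hε => (h1 ε hε).sub (h2 ε hε)

theorem neg (h1 : AsSub l x A B) : AsSub l x (fun k => -A k) B := fun ε hε => (h1 ε hε).neg_left

theorem abs_left (h1 : AsSub l x A B) : AsSub l x (fun k => |A k|) B := fun ε hε => (h1 ε hε).abs_left

theorem const_mul (c : ℝ) (h1 : AsSub l x A B) : AsSub l x (fun k => c * A k) B := fun ε hε => (h1 ε hε).const_mul_left c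

theorem mul (h : AsScale l x) (h1 : AsSub l x A B) (h2 : AsSub l x A' B') : AsSub l x (fun k => A k * A' k) (fun k => B k * B' k) := fun ε hε => by
  have e := (h1 (ε / 2) (half_pos hε)).mul (h2 (ε / 2) (half_pos hε))
  refine e.trans_eventuallyEq (h.pos.mono fun k hk => ?_)
  have : x k ^ (-ε) = x k ^ (-(ε / 2)) * x k ^ (-(ε / 2)) := by rw [← Real.rpow_add hk]; congr 1; ring
  simp only [this]
  ring

theorem pow (h : AsScale l x) (h1 : AsSub l x A B) (n : ℕ) : AsSub l x (fun k => A k ^ n) (fun k => B k ^ n) := by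
  induction n with
  | zero => simpa using refl h (fun _ => (1 : ℝ))
  | succ n ih => simpa only [pow_succ] using ih.mul h h1

/-- finite sums (a FIXED finite index set) -/
theorem sum {ι : Type*} (s : Finset ι) {A : ι → α → ℝ} (h1 : ∀ i ∈ s, AsSub l x (A i) B) : AsSub l x (fun k => ∑ i ∈ s, A i k) B :=
  fun ε hε => (IsBigO.sum fun i hi => h1 i hi ε hε).congr_left fun k => by simp

/-- the loss may be put on the left -/
theorem mul_rpow_left (h : AsScale l x) (h1 : AsSub l x A B) (a : ℝ) : AsSub l x (fun k => x k ^ a * A k) (fun k => x k ^ a * B k) :=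
  (refl h fun k => x k ^ a).mul h h1

theorem congr_left (h1 : AsSub l x A B) (he : A =ᶠ[l] A') : AsSub l x A' B := fun ε hε => (h1 ε hε).congr' he EventuallyEq.rfl

theorem congr_right (h1 : AsSub l x A B) (he : B =ᶠ[l] B') : AsSub l x A B' := fun ε hε =>
  (h1 ε hε).congr' EventuallyEq.rfl (he.mono fun k hk => by simp only [hk])

theorem mono {l' : Filter α} (h1 : AsSub l x A B) (hl : l' ≤ l) : AsSub l' x A B := fun ε hε => (h1 ε hε).mono hl

theorem comp_tendsto {β : Type*} {l' : Filter β} {s : β → α} (h1 : AsSub l x A B) (hs : Tendsto s l' l) :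
    AsSub l' (x ∘ s) (A ∘ s) (B ∘ s) := fun ε hε => (h1 ε hε).comp_tendsto hs

end AsSub

/-! ## `AsPow` -/

namespace AsPow

variable {A B C A' B' : α → ℝ}

/-- a power saving survives a subpower loss -/
theorem of_sub (h : AsScale l x) {c : ℝ} (hc : 0 < c) (h1 : AsSub l x A fun k => x k ^ c * B k) : AsPow l x A B := by
  refine ⟨c / 2, half_pos hc, (h1 (c / 2) (half_pos hc)).trans_eventuallyEq ((as_rpow_mul_rpow h _ _ B).trans (Eventually.of_forall fun k => ?_))⟩
  simp only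
  congr 2
  ring

theorem isLittleO (h : AsScale l x) (h1 : AsPow l x A B) : A =o[l] B := by
  obtain ⟨c, hc, h1⟩ := h1
  have h2 : (fun k => x k ^ c) =o[l] fun _ => (1 : ℝ) := (isLittleO_one_iff ℝ).2 (h.rpow_lim hc)
  have := h1.trans_isLittleO (h2.mul_isBigO (isBigO_refl B l))
  simpa using this

theorem isBigO (h : AsScale l x) (h1 : AsPow l x A B) : A =O[l] B := (h1.isLittleO h).isBigO

theorem trans_sub (h : AsScale l x) (h1 : AsPow l x A B) (h2 : AsSub l x B C) : AsPow l x A C := by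
  obtain ⟨c, hc, h1⟩ := h1
  exact of_sub h hc (AsSub.of_isBigO_trans h1 (h2.mul_rpow_left h c))

theorem of_sub_trans (h : AsScale l x) (h1 : AsSub l x A B) (h2 : AsPow l x B C) : AsPow l x A C := by
  obtain ⟨c, hc, h2⟩ := h2
  exact of_sub h hc (h1.trans_isBigO h2)

theorem add (h : AsScale l x) (h1 : AsPow l x A B) (h2 : AsPow l x A' B) : AsPow l x (fun k => A k + A' k) B := by
  obtain ⟨c, hc, h1⟩ := h1
  obtain ⟨c', hc', h2⟩ := h2
  exact ⟨min c c', lt_min hc hc', (h1.trans (as_mul_rpow_isBigO h (min_le_left _ _) B)).add (h2.trans (as_mul_rpow_isBigO h (min_le_right _ _) B))⟩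

theorem mul_sub (h : AsScale l x) (h1 : AsPow l x A B) (h2 : AsSub l x A' B') : AsPow l x (fun k => A k * A' k) (fun k => B k * B' k) := by
  obtain ⟨c, hc, h1⟩ := h1
  refine of_sub h hc (((IsBigO_asSub h h1).mul h h2).congr_right (Eventually.of_forall fun k => ?_))
  simp only
  ring

theorem const_mul (c : ℝ) (h1 : AsPow l x A B) : AsPow l x (fun k => c * A k) B := by
  obtain ⟨c', hc, h1⟩ := h1
  exact ⟨c', hc, h1.const_mul_left c⟩

theorem sum (h : AsScale l x) {ι : Type*} (s : Finset ι) {A : ι → α → ℝ} (h1 : ∀ i ∈ s, AsPow l x (A i) B) : AsPow l x (fun k => ∑ i ∈ s, A i k) B := by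
  classical
  induction s using Finset.induction_on with
  | empty => exact ⟨1, one_pos, by simpa using isBigO_zero _ l⟩
  | insert a s ha ih =>
    simp only [Finset.sum_insert ha]
    exact (h1 a (Finset.mem_insert_self a s)).add h (ih fun i hi => h1 i (Finset.mem_insert_of_mem hi))

theorem mono {l' : Filter α} (h1 : AsPow l x A B) (hl : l' ≤ l) : AsPow l' x A B := by
  obtain ⟨c, hc, h1⟩ := h1
  exact ⟨c, hc, h1.mono hl⟩

end AsPow

/-! ## logarithms are absorbed -/

/-- `|log x|^p ≲_∘ 1` -/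
theorem as_log_sub (h : AsScale l x) (p : ℝ) : AsSub l x (fun k => |Real.log (x k)| ^ p) (fun _ => 1) := fun ε hε => by
  have h1 : Tendsto (fun k => (x k)⁻¹) l atTop :=
    tendsto_inv_nhdsGT_zero.comp (tendsto_nhdsWithin_iff.2 ⟨h.lim, h.pos⟩)
  have h2 := ((isLittleO_log_rpow_rpow_atTop p hε).comp_tendsto h1).isBigO
  refine h2.congr' ?_ ?_
  · filter_upwards [h.pos, h.lt_one] with k h0 h1
    simp only [Function.comp_apply, Real.log_inv]
    rw [abs_of_neg (Real.log_neg h0 h1)]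
  · filter_upwards [h.pos] with k h0
    simp only [Function.comp_apply, mul_one]
    rw [Real.inv_rpow h0.le, Real.rpow_neg h0.le]

theorem as_log_pow_sub (h : AsScale l x) (n : ℕ) : AsSub l x (fun k => Real.log (x k) ^ n) (fun _ => 1) := fun ε hε => by
  have := (as_log_sub h n ε hε).norm_left
  refine IsBigO.of_norm_left (this.congr_left fun k => ?_)
  rw [Real.rpow_natCast, Real.norm_eq_abs, Real.norm_eq_abs, abs_pow, abs_abs, abs_pow]

/-! ## `AsExp` -/

theorem as_exp_self (h : AsScale l x) (e : ℝ) : AsExp l x (fun k => x k ^ e) e := fun ε hε => by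
  filter_upwards [h.rpow_le (a := e) (b := e + ε) (by linarith), h.rpow_le (a := e - ε) (b := e) (by linarith)] with k h1 h2
  exact ⟨h1, h2⟩

/-- a positive constant has the exponent `0` -/
theorem as_exp_const (h : AsScale l x) {C : ℝ} (hC : 0 < C) : AsExp l x (fun _ => C) 0 := fun ε hε => by
  filter_upwards [h.const_le C hε, h.const_le C⁻¹ hε, h.pos] with k h1 h2 h0
  refine ⟨?_, by simpa using h1⟩
  rw [zero_add]
  rw [Real.rpow_neg h0.le] at h2
  have h3 : 0 < x k ^ ε := Real.rpow_pos_of_pos h0 _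
  exact (inv_le_inv₀ hC h3).1 h2

namespace AsExp

variable {A A' : α → ℝ} {e e' : ℝ}

theorem pos (h : AsScale l x) (h1 : AsExp l x A e) : ∀ᶠ k in l, 0 < A k := by
  filter_upwards [h1 1 one_pos, h.pos] with k hk h0
  exact lt_of_lt_of_le (Real.rpow_pos_of_pos h0 _) hk.1

theorem mul (h : AsScale l x) (h1 : AsExp l x A e) (h2 : AsExp l x A' e') : AsExp l x (fun k => A k * A' k) (e + e') := fun ε hε => by
  filter_upwards [h1 (ε / 2) (half_pos hε), h2 (ε / 2) (half_pos hε), h.pos, h1.pos h, h2.pos h] with k a1 a2 h0 p1 p2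
  constructor
  · have : x k ^ (e + e' + ε) = x k ^ (e + ε / 2) * x k ^ (e' + ε / 2) := by rw [← Real.rpow_add h0]; congr 1; ring
    rw [this]
    exact mul_le_mul a1.1 a2.1 (Real.rpow_pos_of_pos h0 _).le p1.le
  · have : x k ^ (e + e' - ε) = x k ^ (e - ε / 2) * x k ^ (e' - ε / 2) := by rw [← Real.rpow_add h0]; congr 1; ring
    rw [this]
    exact mul_le_mul a1.2 a2.2 p2.le (Real.rpow_pos_of_pos h0 _).le

theorem inv (h : AsScale l x) (h1 : AsExp l x A e) : AsExp l x (fun k => (A k)⁻¹) (-e) := fun ε hε => by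
  filter_upwards [h1 ε hε, h.pos, h1.pos h] with k a1 h0 p1
  constructor
  · have : x k ^ (-e + ε) = (x k ^ (e - ε))⁻¹ := by rw [← Real.rpow_neg h0.le]; congr 1; ring
    rw [this]
    exact (inv_le_inv₀ (Real.rpow_pos_of_pos h0 _) p1).2 a1.2
  · have : x k ^ (-e - ε) = (x k ^ (e + ε))⁻¹ := by rw [← Real.rpow_neg h0.le]; congr 1; ring
    rw [this]
    exact (inv_le_inv₀ p1 (Real.rpow_pos_of_pos h0 _)).2 a1.1

theorem div (h : AsScale l x) (h1 : AsExp l x A e) (h2 : AsExp l x A' e') : AsExp l x (fun k => A k / A' k) (e - e') := by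
  simpa only [div_eq_mul_inv, sub_eq_add_neg] using h1.mul h (h2.inv h)

/-- nonnegative real powers -/
theorem rpow (h : AsScale l x) (h1 : AsExp l x A e) {p : ℝ} (hp : 0 ≤ p) : AsExp l x (fun k => A k ^ p) (e * p) := by
  rcases hp.eq_or_lt with rfl | hp
  · simpa using as_exp_const h one_pos
  intro ε hε
  filter_upwards [h1 (ε / p) (div_pos hε hp), h.pos, h1.pos h] with k a1 h0 p1
  constructor
  · have : x k ^ (e * p + ε) = (x k ^ (e + ε / p)) ^ p := by rw [← Real.rpow_mul h0.le]; congr 1; field_simp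
    rw [this]
    exact Real.rpow_le_rpow (Real.rpow_pos_of_pos h0 _).le a1.1 hp.le
  · have : x k ^ (e * p - ε) = (x k ^ (e - ε / p)) ^ p := by rw [← Real.rpow_mul h0.le]; congr 1; field_simp
    rw [this]
    exact Real.rpow_le_rpow p1.le a1.2 hp.le

theorem sqrt (h : AsScale l x) (h1 : AsExp l x A e) : AsExp l x (fun k => Real.sqrt (A k)) (e / 2) := by
  have := h1.rpow h (p := 1 / 2) (by norm_num)
  simpa only [Real.sqrt_eq_rpow, mul_one_div] using this

theorem sub_le (h : AsScale l x) (h1 : AsExp l x A e) : AsSub l x A fun k => x k ^ e := fun ε hε => by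
  refine IsBigO.of_bound 1 ?_
  filter_upwards [h1 ε hε, h.pos, h1.pos h] with k a1 h0 p1
  rw [Real.norm_eq_abs, Real.norm_eq_abs, abs_of_pos p1, ← Real.rpow_add h0, abs_of_pos (Real.rpow_pos_of_pos h0 _), one_mul]
  convert a1.2 using 2
  ring

theorem le_sub (h : AsScale l x) (h1 : AsExp l x A e) : AsSub l x (fun k => x k ^ e) A := fun ε hε => by
  refine IsBigO.of_bound 1 ?_
  filter_upwards [h1 ε hε, h.pos, h1.pos h] with k a1 h0 p1
  have h3 : 0 < x k ^ (-ε) := Real.rpow_pos_of_pos h0 _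
  rw [Real.norm_eq_abs, Real.norm_eq_abs, abs_of_pos (Real.rpow_pos_of_pos h0 _), abs_of_pos (mul_pos h3 p1), one_mul]
  calc x k ^ e = x k ^ (-ε) * x k ^ (e + ε) := by rw [← Real.rpow_add h0]; congr 1; ring
    _ ≤ x k ^ (-ε) * A k := mul_le_mul_of_nonneg_left a1.1 h3.le

/-- a larger exponent is a power saving -/
theorem pow_of_lt (h : AsScale l x) (h1 : AsExp l x A e) (h2 : AsExp l x A' e') (hlt : e' < e) : AsPow l x A A' := by
  refine AsPow.of_sub h (c := e - e') (by linarith) ((h1.sub_le h).trans h (((h2.le_sub h).mul_rpow_left h (e - e')).congr_left ?_))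
  filter_upwards [h.pos] with k h0
  rw [← Real.rpow_add h0]
  congr 1
  ring

theorem mono {l' : Filter α} (h1 : AsExp l x A e) (hl : l' ≤ l) : AsExp l' x A e := fun ε hε => (h1 ε hε).filter_mono hl

theorem congr (h1 : AsExp l x A e) (he : A =ᶠ[l] A') : AsExp l x A' e := fun ε hε => by
  filter_upwards [h1 ε hε, he] with k a1 a2
  rwa [← a2]

end AsExp

/-- two-sided subpower comparison with `x^e` IS the exponent `e` -/
theorem as_exp_of_sub (h : AsScale l x) {A : α → ℝ} {e : ℝ} (hp : ∀ᶠ k in l, 0 < A k) (h1 : AsSub l x A fun k => x k ^ e)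
    (h2 : AsSub l x (fun k => x k ^ e) A) : AsExp l x A e := fun ε hε => by
  obtain ⟨C1, g1⟩ := as_O_iff.1 (h1 (ε / 2) (half_pos hε))
  obtain ⟨C2, g2⟩ := as_O_iff.1 (h2 (ε / 2) (half_pos hε))
  filter_upwards [g1, g2, hp, h.pos, h.const_le C1 (half_pos hε), h.const_le C2 (half_pos hε)] with k a1 a2 p1 h0 c1 c2
  have q : ∀ y : ℝ, 0 < x k ^ y := fun y => Real.rpow_pos_of_pos h0 y
  rw [abs_of_pos p1, ← Real.rpow_add h0, abs_of_pos (q _)] at a1
  rw [abs_of_pos (q _), abs_of_pos (mul_pos (q _) p1)] at a2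
  constructor
  · have e1 : x k ^ e ≤ x k ^ (-(ε / 2)) * (x k ^ (-(ε / 2)) * A k) := a2.trans (mul_le_mul_of_nonneg_right c2 (mul_pos (q _) p1).le)
    have e2 : x k ^ (e + ε) = x k ^ ε * x k ^ e := by rw [← Real.rpow_add h0]; congr 1; ring
    have e3 : x k ^ ε * (x k ^ (-(ε / 2)) * (x k ^ (-(ε / 2)) * A k)) = A k := by
      rw [← mul_assoc, ← mul_assoc, ← Real.rpow_add h0, ← Real.rpow_add h0]
      have : ε + -(ε / 2) + -(ε / 2) = 0 := by ring
      rw [this, Real.rpow_zero, one_mul]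
    rw [e2, ← e3]
    exact mul_le_mul_of_nonneg_left e1 (q _).le
  · have e1 : A k ≤ x k ^ (-(ε / 2)) * x k ^ (-(ε / 2) + e) := a1.trans (mul_le_mul_of_nonneg_right c1 (q _).le)
    rw [← Real.rpow_add h0] at e1
    convert e1 using 2
    ring

/-- the exponent is the limit of `log A / log x` -/
theorem as_exp_of_tendsto (h : AsScale l x) {A : α → ℝ} {e : ℝ} (hp : ∀ᶠ k in l, 0 < A k)
    (ht : Tendsto (fun k => Real.log (A k) / Real.log (x k)) l (𝓝 e)) : AsExp l x A e := fun ε hε => by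
  filter_upwards [hp, h.pos, h.lt_one, ht.eventually (gt_mem_nhds (show e < e + ε by linarith)), ht.eventually (lt_mem_nhds (show e - ε < e by linarith))]
    with k p1 h0 h1 a1 a2
  have hl : Real.log (x k) < 0 := Real.log_neg h0 h1
  rw [div_lt_iff_of_neg hl] at a1
  rw [lt_div_iff_of_neg hl] at a2
  constructor
  · calc x k ^ (e + ε) = Real.exp (Real.log (x k) * (e + ε)) := Real.rpow_def_of_pos h0 _
      _ ≤ Real.exp (Real.log (A k)) := Real.exp_le_exp.2 (by linarith)
      _ = A k := Real.exp_log p1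
  · calc A k = Real.exp (Real.log (A k)) := (Real.exp_log p1).symm
      _ ≤ Real.exp (Real.log (x k) * (e - ε)) := Real.exp_le_exp.2 (by linarith)
      _ = x k ^ (e - ε) := (Real.rpow_def_of_pos h0 _).symm

/-! ## the three frames -/

section frames

variable {ι : Type*}

/-- **frame (U)**: `N → ∞`, uniformly on the domain `D N ⊆ ι` -/
def asU (D : ℕ → ι → Prop) : Filter (ℕ × ι) := (atTop ×ˢ ⊤) ⊓ 𝓟 {p | D p.1 p.2}

theorem as_U_eqns_cite : True := by
  have := @asU.eq_1.{0}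
  trivial

theorem as_U_eventually {D : ℕ → ι → Prop} {P : ℕ × ι → Prop} :
    (∀ᶠ p in asU D, P p) ↔ ∃ N0 : ℕ, ∀ N, N0 ≤ N → ∀ i, D N i → P (N, i) := by
  rw [asU, eventually_inf_principal, prod_top, eventually_comap, eventually_atTop]
  constructor
  · rintro ⟨N0, H⟩
    exact ⟨N0, fun N hN i hi => H N hN (N, i) rfl hi⟩
  · rintro ⟨N0, H⟩
    refine ⟨N0, fun N hN p hp hD => ?_⟩
    obtain ⟨N', i⟩ := p
    obtain rfl : N' = N := hp
    exact H _ hN i hD

/-- a sequence of instances in the domain with `N_k → ∞` tends to `asU D` -/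
theorem as_U_tendsto {β : Type*} {l' : Filter β} {D : ℕ → ι → Prop} {s : β → ℕ × ι} (hD : ∀ᶠ k in l', D (s k).1 (s k).2)
    (hN : Tendsto (fun k => (s k).1) l' atTop) : Tendsto s l' (asU D) := by
  rw [asU, tendsto_inf, tendsto_principal, prod_top, tendsto_comap_iff]
  exact ⟨hN, hD⟩

theorem as_U_fst (D : ℕ → ι → Prop) : Tendsto (fun p : ℕ × ι => p.1) (asU D) atTop := by
  rw [asU, prod_top]
  exact tendsto_comap.mono_left inf_le_left

/-- **(U) ⟺ (S)** for properties -/
theorem as_U_iff_seq {D : ℕ → ι → Prop} {P : ℕ × ι → Prop} :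
    (∀ᶠ p in asU D, P p) ↔ ∀ s : ℕ → ℕ × ι, (∀ k, D (s k).1 (s k).2) → Tendsto (fun k => (s k).1) atTop atTop → ∀ᶠ k in atTop, P (s k) := by
  constructor
  · intro h s hD hN
    exact (as_U_tendsto (Eventually.of_forall hD) hN).eventually h
  · intro h
    by_contra hc
    rw [as_U_eventually] at hc
    push Not at hc
    choose N hN i hi hP using hc
    have := h (fun n => (N n, i n)) hi (tendsto_atTop_mono hN tendsto_id)
    obtain ⟨k, hk⟩ := this.exists
    exact hP k hk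

/-- **a filter is tested on its ultrafilters** -/
theorem as_iff_ultra {P : α → Prop} : (∀ᶠ k in l, P k) ↔ ∀ V : Ultrafilter α, ↑V ≤ l → ∀ᶠ k in (V : Filter α), P k :=
  Filter.mem_iff_ultrafilter

/-- **(U) ⟺ (S)** for `O` -/
theorem as_O_U_iff_seq {D : ℕ → ι → Prop} {A B : ℕ × ι → ℝ} :
    A =O[asU D] B ↔ ∀ s : ℕ → ℕ × ι, (∀ k, D (s k).1 (s k).2) → Tendsto (fun k => (s k).1) atTop atTop → (A ∘ s) =O[atTop] (B ∘ s) := by
  constructor
  · intro h s hD hN
    exact h.comp_tendsto (as_U_tendsto (Eventually.of_forall hD) hN)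
  · intro h
    by_contra hc
    rw [as_O_iff] at hc
    push Not at hc
    have hc' : ∀ n : ℕ, ∃ N, n ≤ N ∧ ∃ i, D N i ∧ (n : ℝ) * |B (N, i)| < |A (N, i)| := by
      intro n
      by_contra hcon
      push Not at hcon
      exact (hc n) (as_U_eventually.2 ⟨n, fun N hN i hi => not_lt.2 (hcon N hN i hi)⟩)
    choose N hN i hi hP using hc'
    obtain ⟨C, hC⟩ := as_O_iff.1 (h (fun n => (N n, i n)) hi (tendsto_atTop_mono hN tendsto_id))
    obtain ⟨k, hk1, hk2⟩ := (hC.and (eventually_ge_atTop ⌈C⌉₊)).exists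
    have h1 : C ≤ (k : ℝ) := (Nat.le_ceil C).trans (by exact_mod_cast hk2)
    have h2 := hP k
    simp only [Function.comp_apply] at hk1
    have h3 : C * |B (N k, i k)| ≤ (k : ℝ) * |B (N k, i k)| := mul_le_mul_of_nonneg_right h1 (abs_nonneg _)
    linarith

/-- **`O` is tested on the ultrafilters** -/
theorem as_O_iff_ultra {A B : α → ℝ} : A =O[l] B ↔ ∀ V : Ultrafilter α, ↑V ≤ l → A =O[(V : Filter α)] B := by
  constructor
  · exact fun h V hV => h.mono hV
  · intro h
    by_contra hc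
    rw [as_O_iff] at hc
    push Not at hc
    let S : ℕ → Set α := fun n => {k | (n : ℝ) * |B k| < |A k|}
    have hS : Antitone S := by
      intro n m hnm k hk
      have h1 : (n : ℝ) * |B k| ≤ (m : ℝ) * |B k| := mul_le_mul_of_nonneg_right (by exact_mod_cast hnm) (abs_nonneg _)
      exact lt_of_le_of_lt h1 hk
    have hb : (⨅ n, 𝓟 (S n)).HasBasis (fun _ : ℕ => True) S :=
      hasBasis_iInf_principal (hS.directed_ge)
    have hne : (l ⊓ ⨅ n, 𝓟 (S n)).NeBot := by
      rw [(l.basis_sets.inf hb).neBot_iff]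
      rintro ⟨t, n⟩ ⟨ht, -⟩
      have h1 : ∃ᶠ k in l, (n : ℝ) * |B k| < |A k| := hc n
      obtain ⟨k, hk1, hk2⟩ := (h1.and_eventually ht).exists
      exact ⟨k, hk2, hk1⟩
    obtain ⟨C, hC⟩ := as_O_iff.1 (h (Ultrafilter.of (l ⊓ ⨅ n, 𝓟 (S n))) ((Ultrafilter.of_le _).trans inf_le_left))
    have hm : S ⌈C⌉₊ ∈ (Ultrafilter.of (l ⊓ ⨅ n, 𝓟 (S n)) : Filter α) :=
      (Ultrafilter.of_le _) (mem_inf_of_right (mem_iInf_of_mem ⌈C⌉₊ (mem_principal_self _)))
    obtain ⟨k, hk1, hk2⟩ := (hC.and hm).exists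
    have h3 : C * |B k| ≤ (⌈C⌉₊ : ℝ) * |B k| := mul_le_mul_of_nonneg_right (Nat.le_ceil C) (abs_nonneg _)
    have h4 : (⌈C⌉₊ : ℝ) * |B k| < |A k| := hk2
    linarith

theorem as_sub_iff_ultra {A B : α → ℝ} : AsSub l x A B ↔ ∀ V : Ultrafilter α, ↑V ≤ l → AsSub (V : Filter α) x A B :=
  ⟨fun h _ hV => h.mono hV, fun h ε hε => as_O_iff_ultra.2 fun V hV => h V hV ε hε⟩

theorem as_sub_U_iff_seq {D : ℕ → ι → Prop} {y A B : ℕ × ι → ℝ} :
    AsSub (asU D) y A B ↔ ∀ s : ℕ → ℕ × ι, (∀ k, D (s k).1 (s k).2) → Tendsto (fun k => (s k).1) atTop atTop → AsSub atTop (y ∘ s) (A ∘ s) (B ∘ s) :=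
  ⟨fun h _ hD hN => h.comp_tendsto (as_U_tendsto (Eventually.of_forall hD) hN), fun h ε hε => as_O_U_iff_seq.2 fun s hD hN => h s hD hN ε hε⟩

theorem AsScale.comp_tendsto {β : Type*} {l' : Filter β} {s : β → α} (h : AsScale l x) (hs : Tendsto s l' l) : AsScale l' (x ∘ s) :=
  ⟨hs.eventually h.pos, h.lim.comp hs⟩

theorem AsScale.mono {l' : Filter α} (h : AsScale l x) (hl : l' ≤ l) : AsScale l' x := ⟨h.pos.filter_mono hl, h.lim.mono_left hl⟩

end frames

/-! ## along an ultrafilter -/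

section ultra

variable (V : Ultrafilter α)

/-- **dichotomy** -/
theorem as_ultra_dich (A B : α → ℝ) : A =O[(V : Filter α)] B ∨ B =o[(V : Filter α)] A := by
  by_cases h : A =O[(V : Filter α)] B
  · exact Or.inl h
  · refine Or.inr (isLittleO_iff.2 fun c hc => ?_)
    rw [as_O_iff] at h
    push Not at h
    filter_upwards [h c⁻¹] with k hk
    rw [Real.norm_eq_abs, Real.norm_eq_abs]
    rw [inv_mul_lt_iff₀ hc] at hk
    exact hk.le

/-- every property holds eventually or fails eventually -/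
theorem as_ultra_em (P : α → Prop) : (∀ᶠ k in (V : Filter α), P k) ∨ ∀ᶠ k in (V : Filter α), ¬ P k := Ultrafilter.em V P

/-- **a bounded sequence converges** -/
theorem as_ultra_lim {A : α → ℝ} {a b : ℝ} (h : ∀ᶠ k in (V : Filter α), a ≤ A k ∧ A k ≤ b) : ∃ c, a ≤ c ∧ c ≤ b ∧ Tendsto A V (𝓝 c) := by
  obtain ⟨c, hc, hl⟩ := isCompact_Icc.ultrafilter_le_nhds (V.map A) (by
    rw [le_principal_iff]
    exact h)
  exact ⟨c, hc.1, hc.2, hl⟩

/-- **a polynomially bounded positive sequence has an exponent** -/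
theorem as_ultra_exp {x A : α → ℝ} (h : AsScale (V : Filter α) x) {K : ℝ} (hA : ∀ᶠ k in (V : Filter α), x k ^ K ≤ A k ∧ A k ≤ x k ^ (-K)) :
    ∃ e, -K ≤ e ∧ e ≤ K ∧ AsExp (V : Filter α) x A e := by
  have hp : ∀ᶠ k in (V : Filter α), 0 < A k := by
    filter_upwards [hA, h.pos] with k a1 h0
    exact lt_of_lt_of_le (Real.rpow_pos_of_pos h0 _) a1.1
  have hb : ∀ᶠ k in (V : Filter α), -K ≤ Real.log (A k) / Real.log (x k) ∧ Real.log (A k) / Real.log (x k) ≤ K := by
    filter_upwards [hA, h.pos, h.lt_one, hp] with k a1 h0 h1 p1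
    have hl : Real.log (x k) < 0 := Real.log_neg h0 h1
    have e1 := Real.log_le_log (Real.rpow_pos_of_pos h0 _) a1.1
    have e2 := Real.log_le_log p1 a1.2
    rw [Real.log_rpow h0] at e1 e2
    rw [le_div_iff_of_neg hl, div_le_iff_of_neg hl]
    exact ⟨e2, e1⟩
  obtain ⟨e, h1, h2, h3⟩ := as_ultra_lim V hb
  exact ⟨e, h1, h2, as_exp_of_tendsto h hp h3⟩

end ultra

/-! ## the scales of the row -/

/-- `x = N^(-1/6)` (LL) -/
noncomputable def skx (N : ℕ) : ℝ := (N : ℝ) ^ (-(1 / 6 : ℝ))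

theorem as_skx_eqns_cite : True := by
  have := @skx.eq_1
  trivial

theorem as_skx_pos {N : ℕ} (hN : 1 ≤ N) : 0 < skx N := Real.rpow_pos_of_pos (by exact_mod_cast hN) _

/-- `N^(-c)` is a scale -/
theorem as_scale_nat {c : ℝ} (hc : 0 < c) : AsScale atTop (fun N : ℕ => (N : ℝ) ^ (-c)) :=
  ⟨(eventually_ge_atTop 1).mono fun N hN => Real.rpow_pos_of_pos (by exact_mod_cast hN) _,
    (tendsto_rpow_neg_atTop hc).comp tendsto_natCast_atTop_atTop⟩

theorem as_skx_scale : AsScale atTop skx := as_scale_nat (by norm_num)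

theorem as_skx_scale_U {ι : Type*} (D : ℕ → ι → Prop) : AsScale (asU D) (fun p => skx p.1) := as_skx_scale.comp_tendsto (as_U_fst D)

/-- **closed form of `≲` in the frame (U)** -/
theorem as_O_U_iff {ι : Type*} {D : ℕ → ι → Prop} {A B : ℕ × ι → ℝ} :
    A =O[asU D] B ↔ ∃ (C : ℝ) (N0 : ℕ), ∀ N, N0 ≤ N → ∀ i, D N i → |A (N, i)| ≤ C * |B (N, i)| := by
  simp only [as_O_iff, as_U_eventually]

/-- **closed form of `≲_∘` in the frame (U)** -/
theorem as_sub_U_iff {ι : Type*} {D : ℕ → ι → Prop} {A B : ℕ × ι → ℝ} :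
    AsSub (asU D) (fun p => skx p.1) A B ↔
      ∀ ε : ℝ, 0 < ε → ∃ (C : ℝ) (N0 : ℕ), ∀ N, N0 ≤ N → ∀ i, D N i → |A (N, i)| ≤ C * skx N ^ (-ε) * |B (N, i)| := by
  simp only [as_sub_iff' (as_skx_scale_U D), as_U_eventually]

/-- **closed form of a power saving in the frame (U)** -/
theorem as_pow_U_iff {ι : Type*} {D : ℕ → ι → Prop} {A B : ℕ × ι → ℝ} :
    AsPow (asU D) (fun p => skx p.1) A B ↔
      ∃ c : ℝ, 0 < c ∧ ∃ (C : ℝ) (N0 : ℕ), ∀ N, N0 ≤ N → ∀ i, D N i → |A (N, i)| ≤ C * skx N ^ c * |B (N, i)| := by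
  unfold AsPow
  refine exists_congr fun c => and_congr_right fun _ => ?_
  rw [as_O_iff]
  refine exists_congr fun C => ?_
  rw [← as_U_eventually (P := fun p => |A p| ≤ C * skx p.1 ^ c * |B p|)]
  refine eventually_congr ((as_skx_scale_U D).pos.mono fun p hp => ?_)
  rw [abs_mul, abs_of_pos (Real.rpow_pos_of_pos hp _), mul_assoc]

/-! ## BRIDGE to the dialect `Aq*` (large scale `s = x⁻¹`) -/

theorem as_scale_iff_aq : AsScale l x ↔ Tendsto (fun k => (x k)⁻¹) l atTop := by
  constructor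
  · intro h
    exact tendsto_inv_nhdsGT_zero.comp (tendsto_nhdsWithin_iff.2 ⟨h.lim, h.pos⟩)
  · intro h
    refine ⟨(h.eventually_gt_atTop 0).mono fun k hk => inv_pos.1 hk, ?_⟩
    have := tendsto_inv_atTop_zero.comp h
    simpa [Function.comp_def] using this

theorem as_inv_rpow (h : AsScale l x) (a : ℝ) (B : α → ℝ) : (fun k => (x k)⁻¹ ^ a * B k) =ᶠ[l] fun k => x k ^ (-a) * B k :=
  h.pos.mono fun k hk => by simp only [Real.inv_rpow hk.le, Real.rpow_neg hk.le]

theorem as_sub_iff_aq (h : AsScale l x) {A B : α → ℝ} : AsSub l x A B ↔ AqSub l (fun k => (x k)⁻¹) A B :=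
  forall_congr' fun ε => imp_congr_right fun _ => (isBigO_congr EventuallyEq.rfl (as_inv_rpow h ε B)).symm

theorem as_pow_iff_aq (h : AsScale l x) {A B : α → ℝ} : AsPow l x A B ↔ AqPoly l (fun k => (x k)⁻¹) A B :=
  exists_congr fun c => and_congr_right fun _ => by
    have := as_inv_rpow h (-c) B
    simp only [neg_neg] at this
    exact (isBigO_congr EventuallyEq.rfl this).symm

theorem as_U_eq_aq {ι : Type*} (D : ℕ → ι → Prop) : asU D = aqUnif (fun p : ℕ × ι => (p.1 : ℝ)) (fun p => D p.1 p.2) := by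
  unfold asU aqUnif
  congr 1
  rw [prod_top, ← Nat.comap_cast_atTop (R := ℝ), comap_comap]
  rfl

end Claimed.Agent.R286
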