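-- KEEP
import Claimed.Agent.R286.Top.Glue
import Claimed.Agent.R286.Top.RedSk
import Claimed.Agent.R286.Exit.Tail
import Claimed.Agent.R286.Exit.Expo
import Claimed.Agent.R286.Exit.Incr
import Claimed.Agent.R286.Exit.Dyad

/-!
# Row 286 (S0533): THE HUB      (owner helper207)

`hub_main` = the statement of S0533.  All contracts BETWEEN units live in `R286/Exit/*.lean` (one theorem per file, statement frozen by 207,
proof owned by the head named in the header).   Map of the units and of the exits: `git show origin/helper207:notes/R286/HUB_207.md`.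

    S0533  <=  SkMom (Top/Glue)  <=  SkDyadic + SkExponent + SkTail (Top/RedSk)
    SkDyadic  <=  SkIncr + SkSmall (Exit/Dyad),      SkSmall  <=  SkExponent + SkTail (Top/RedSk)
    SkExponent = PE Theorem 1.1 (Exit/Expo),    SkTail = log-concave unit (Exit/Tail),    SkIncr = LL Prop 4.1 + path data (Exit/Incr)
-/

set_option autoImplicit false

namespace Claimed.Agent.R286

open MeasureTheory ProbabilityTheory Filter Topology BoundedContinuousFunction
open Claims.C0461

theorem hub_main (β : ℝ) (hβ : 1 < β) :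
    (∃ c : ℝ, 0 < c ∧
      Tendsto (fun n : ℕ => skVariance β n / (n : ℝ) ^ ((1 : ℝ) / 3)) atTop (𝓝 c)) ∧
    ∃ ν : Measure ℝ, IsProbabilityMeasure ν ∧ ∫ x, x ∂ν = 0 ∧ ∫ x, x ^ 2 ∂ν = 1 ∧
      (∃ t : ℝ, 0 < t ∧ Integrable (fun x => Real.exp (t * |x|)) ν) ∧
      ∀ f : ℝ →ᵇ ℝ, Tendsto (fun n : ℕ => ∫ g, f (skStandardized β n g) ∂skDisorder n) atTop
        (𝓝 (∫ x, f x ∂ν)) :=
  sk_top_main β (sk_red_mom β
    (exit_dyad β (exit_incr β hβ) (sk_red_small β (exit_expo β hβ) (exit_tail β)))
    (exit_expo β hβ) (exit_tail β))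

end Claimed.Agent.R286
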