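import Mathlib

/-!
# Row 286 (S0533), T3 LOG-CONCAVE, cut 2, file 1: ONE-DIMENSIONAL LOG-CONCAVE LAWS      (helper17; prefix `lcs_`, `LcSurv`, constants `lcsH, lcsK0, lcsC1, lcsK, lcsC2`)

PE Lemma 7.7 (`fl:one-dimensional`), without densities.   HYPOTHESIS `LcSurv μ` = both survival functions `u ↦ μ [u, ∞)`, `u ↦ μ (-∞, u]` are log-concave
(producer: `LcAug.lean`: every measure on `ℝ` with the Prekopa-Leindler property).   `μ` a probability measure, `∫ x = 0`, `∫ x² = σ²`, `σ > 0`.   All constants are universal and explicit.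
* `LcSurv.neg`, `LcSurv.add_const`, `LcSurv.const_mul`      stability under affine maps
* `lcs_tail`      `μ {t σ ≤ |x|} ≤ 2 exp(-h t)`, `h = lcsH = (log 3)/4`                      (no centring needed)
* `lcs_exp_abs`   `l σ ≤ h/2` ⟹ `exp(l |x|)` integrable, `∫ exp(l |x|) ≤ lcsK0`              (no centring needed)
* `lcs_mgf_le`    `|t| σ ≤ h/4` ⟹ `∫ exp(t x) ≤ exp(lcsC1 t² σ²)`
* `lcs_pos_mass`  `μ {lcsC2 σ ≤ x} ≥ lcsC2`
* `lcs_mgf_ge`    `t ≥ 0` ⟹ `lcsC2 exp(lcsC2 t σ) ≤ ∫⁻ exp(t x)`                              (also when the moment is infinite)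
The density bound of PE Lemma 7.7 is used only for the typical magnitude in PE Thm 1.1, not for S0533: omitted.
-/

set_option autoImplicit false

namespace Claimed.Agent.R286

open MeasureTheory ProbabilityTheory Set Filter Topology
open scoped ENNReal NNReal

/-- both survival functions of `μ` are log-concave -/
structure LcSurv (μ : Measure ℝ) : Prop where
  up : ∀ x y t : ℝ, 0 < t → t < 1 → μ (Ici x) ^ (1 - t) * μ (Ici y) ^ t ≤ μ (Ici ((1 - t) * x + t * y))
  dn : ∀ x y t : ℝ, 0 < t → t < 1 → μ (Iic x) ^ (1 - t) * μ (Iic y) ^ t ≤ μ (Iic ((1 - t) * x + t * y))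

/-- the universal rate `h = (log 3) / 4` -/
noncomputable def lcsH : ℝ := Real.log 3 / 4

theorem lcsH_pos : 0 < lcsH := by
  unfold lcsH
  have : 0 < Real.log 3 := Real.log_pos (by norm_num)
  positivity

theorem lcsH_le : 2 * lcsH ≤ Real.log 2 := by
  unfold lcsH
  have h : Real.log 3 ≤ Real.log 4 := Real.log_le_log (by norm_num) (by norm_num)
  have h4 : Real.log 4 = 2 * Real.log 2 := by
    rw [show (4 : ℝ) = 2 ^ 2 by norm_num, Real.log_pow]; norm_num
  linarith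

/-- the secant argument, in real numbers -/
theorem lcs_secant {b t : ℝ} (hb : 0 ≤ b) (ht : 2 < t)
    (h : (3 / 4 : ℝ) ^ (1 - 4 / (t + 2)) * b ^ (4 / (t + 2)) ≤ 1 / 4) : b ≤ Real.exp (-(lcsH * t)) := by
  rcases hb.eq_or_lt with rfl | hb
  · exact (Real.exp_pos _).le
  have ht2 : 0 < t + 2 := by linarith
  set θ : ℝ := 4 / (t + 2) with hθ
  have hθ0 : 0 < θ := by positivity
  have hθ1 : θ < 1 := by rw [hθ, div_lt_one ht2]; linarith
  have hl := Real.log_le_log (by positivity) h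
  rw [Real.log_mul (by positivity) (by positivity), Real.log_rpow (by norm_num), Real.log_rpow hb] at hl
  have e1 : Real.log (1 / 4) = Real.log (3 / 4) - Real.log 3 := by
    rw [← Real.log_div (by norm_num) (by norm_num)]; norm_num
  have e2 : Real.log (3 / 4) ≤ 0 := Real.log_nonpos (by norm_num) (by norm_num)
  have h3 : 0 < Real.log 3 := Real.log_pos (by norm_num)
  have key : θ * Real.log b ≤ -Real.log 3 := by nlinarith
  have key2 : Real.log b ≤ -(lcsH * t) := by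
    have : Real.log b ≤ -Real.log 3 / θ := by rw [le_div_iff₀ hθ0]; linarith
    have e3 : -Real.log 3 / θ = -(Real.log 3 * (t + 2) / 4) := by rw [hθ]; field_simp
    unfold lcsH
    rw [e3] at this
    nlinarith
  calc b = Real.exp (Real.log b) := (Real.exp_log hb).symm
    _ ≤ _ := Real.exp_le_exp.2 key2

/-- Chebyshev -/
theorem lcs_cheb {μ : Measure ℝ} [IsProbabilityMeasure μ] {σ : ℝ} (hσ : 0 < σ) (hi : Integrable (fun x => x ^ 2) μ)
    (h2 : ∫ x, x ^ 2 ∂μ = σ ^ 2) : μ.real {x | 4 * σ ^ 2 ≤ x ^ 2} ≤ 1 / 4 := by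
  have := mul_meas_ge_le_integral_of_nonneg (μ := μ) (f := fun x => x ^ 2) (Eventually.of_forall fun x => by positivity) hi (4 * σ ^ 2)
  rw [h2] at this
  have hs : 0 < σ ^ 2 := by positivity
  nlinarith

/-- one-sided exponential tail -/
theorem lcs_tail_up {μ : Measure ℝ} [IsProbabilityMeasure μ]
    (hup : ∀ x y t : ℝ, 0 < t → t < 1 → μ (Ici x) ^ (1 - t) * μ (Ici y) ^ t ≤ μ (Ici ((1 - t) * x + t * y)))
    {σ : ℝ} (hσ : 0 < σ) (hi : Integrable (fun x => x ^ 2) μ) (h2 : ∫ x, x ^ 2 ∂μ = σ ^ 2) {t : ℝ} (ht : 2 < t) :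
    μ.real (Ici (t * σ)) ≤ Real.exp (-(lcsH * t)) := by
  have hc := lcs_cheb hσ hi h2
  have ht2 : 0 < t + 2 := by linarith
  have hθ0 : 0 < 4 / (t + 2) := by positivity
  have hθ1 : 4 / (t + 2) < 1 := by rw [div_lt_one ht2]; linarith
  have hA : μ.real (Ici (2 * σ)) ≤ 1 / 4 := by
    refine le_trans (measureReal_mono (fun x hx => ?_)) hc
    simp only [mem_Ici, mem_ofPred_eq] at hx ⊢
    nlinarith
  have hB : 3 / 4 ≤ μ.real (Ici (-2 * σ)) := by
    have h1 : μ.real (Ici (-2 * σ))ᶜ ≤ 1 / 4 := by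
      refine le_trans (measureReal_mono (fun x hx => ?_)) hc
      simp only [mem_compl_iff, mem_Ici, not_le, mem_ofPred_eq] at hx ⊢
      nlinarith
    have h3 := measureReal_compl (μ := μ) (measurableSet_Ici (a := -2 * σ))
    simp only [probReal_univ] at h3
    linarith
  have hk := hup (-2 * σ) (t * σ) (4 / (t + 2)) hθ0 hθ1
  have e : (1 - 4 / (t + 2)) * (-2 * σ) + 4 / (t + 2) * (t * σ) = 2 * σ := by field_simp; ring
  rw [e] at hk
  apply lcs_secant measureReal_nonneg ht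
  have h1θ : 0 ≤ 1 - 4 / (t + 2) := by linarith
  have hk' : μ.real (Ici (-2 * σ)) ^ (1 - 4 / (t + 2)) * μ.real (Ici (t * σ)) ^ (4 / (t + 2)) ≤ μ.real (Ici (2 * σ)) := by
    have := ENNReal.toReal_mono (measure_ne_top μ _) hk
    rwa [ENNReal.toReal_mul, ← ENNReal.toReal_rpow, ← ENNReal.toReal_rpow] at this
  calc (3 / 4 : ℝ) ^ (1 - 4 / (t + 2)) * μ.real (Ici (t * σ)) ^ (4 / (t + 2))
      ≤ μ.real (Ici (-2 * σ)) ^ (1 - 4 / (t + 2)) * μ.real (Ici (t * σ)) ^ (4 / (t + 2)) := by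
        gcongr
    _ ≤ μ.real (Ici (2 * σ)) := hk'
    _ ≤ 1 / 4 := hA

/-! ## reflection, shifts -/

theorem lcs_map_neg_Ici (μ : Measure ℝ) (a : ℝ) : (μ.map fun x => -x) (Ici a) = μ (Iic (-a)) := by
  rw [Measure.map_apply measurable_neg measurableSet_Ici]
  congr 1; ext x; simp only [mem_preimage, mem_Ici, mem_Iic]; constructor <;> intro h <;> linarith

theorem lcs_map_neg_Iic (μ : Measure ℝ) (a : ℝ) : (μ.map fun x => -x) (Iic a) = μ (Ici (-a)) := by
  rw [Measure.map_apply measurable_neg measurableSet_Iic]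
  congr 1; ext x; simp only [mem_preimage, mem_Ici, mem_Iic]; constructor <;> intro h <;> linarith

theorem LcSurv.neg {μ : Measure ℝ} (h : LcSurv μ) : LcSurv (μ.map fun x => -x) := by
  constructor
  · intro x y t h0 h1
    rw [lcs_map_neg_Ici, lcs_map_neg_Ici, lcs_map_neg_Ici]
    have := h.dn (-x) (-y) t h0 h1
    rwa [show (1 - t) * -x + t * -y = -((1 - t) * x + t * y) by ring] at this
  · intro x y t h0 h1
    rw [lcs_map_neg_Iic, lcs_map_neg_Iic, lcs_map_neg_Iic]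
    have := h.up (-x) (-y) t h0 h1
    rwa [show (1 - t) * -x + t * -y = -((1 - t) * x + t * y) by ring] at this

theorem LcSurv.add_const {μ : Measure ℝ} (h : LcSurv μ) (c : ℝ) : LcSurv (μ.map fun x => x + c) := by
  have e1 : ∀ a : ℝ, (μ.map fun x => x + c) (Ici a) = μ (Ici (a - c)) := by
    intro a
    rw [Measure.map_apply (by fun_prop) measurableSet_Ici]
    congr 1; ext x; simp only [mem_preimage, mem_Ici]; constructor <;> intro h <;> linarith
  have e2 : ∀ a : ℝ, (μ.map fun x => x + c) (Iic a) = μ (Iic (a - c)) := by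
    intro a
    rw [Measure.map_apply (by fun_prop) measurableSet_Iic]
    congr 1; ext x; simp only [mem_preimage, mem_Iic]; constructor <;> intro h <;> linarith
  constructor
  · intro x y t h0 h1
    rw [e1, e1, e1]
    have := h.up (x - c) (y - c) t h0 h1
    rwa [show (1 - t) * (x - c) + t * (y - c) = (1 - t) * x + t * y - c by ring] at this
  · intro x y t h0 h1
    rw [e2, e2, e2]
    have := h.dn (x - c) (y - c) t h0 h1
    rwa [show (1 - t) * (x - c) + t * (y - c) = (1 - t) * x + t * y - c by ring] at this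

theorem LcSurv.const_mul {μ : Measure ℝ} (h : LcSurv μ) {a : ℝ} (ha : 0 < a) : LcSurv (μ.map fun x => a * x) := by
  have e1 : ∀ u : ℝ, (μ.map fun x => a * x) (Ici u) = μ (Ici (u / a)) := by
    intro u
    rw [Measure.map_apply (by fun_prop) measurableSet_Ici]
    congr 1; ext x; simp only [mem_preimage, mem_Ici]; rw [div_le_iff₀ ha, mul_comm]
  have e2 : ∀ u : ℝ, (μ.map fun x => a * x) (Iic u) = μ (Iic (u / a)) := by
    intro u
    rw [Measure.map_apply (by fun_prop) measurableSet_Iic]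
    congr 1; ext x; simp only [mem_preimage, mem_Iic]; rw [le_div_iff₀ ha, mul_comm]
  constructor
  · intro x y t h0 h1
    rw [e1, e1, e1]
    have := h.up (x / a) (y / a) t h0 h1
    rwa [show (1 - t) * (x / a) + t * (y / a) = ((1 - t) * x + t * y) / a by ring] at this
  · intro x y t h0 h1
    rw [e2, e2, e2]
    have := h.dn (x / a) (y / a) t h0 h1
    rwa [show (1 - t) * (x / a) + t * (y / a) = ((1 - t) * x + t * y) / a by ring] at this

/-! ## two-sided tails -/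

theorem lcs_tail {μ : Measure ℝ} [IsProbabilityMeasure μ] (hμ : LcSurv μ) {σ : ℝ} (hσ : 0 < σ)
    (hi : Integrable (fun x => x ^ 2) μ) (h2 : ∫ x, x ^ 2 ∂μ = σ ^ 2) (t : ℝ) :
    μ.real {x | t * σ ≤ |x|} ≤ 2 * Real.exp (-(lcsH * t)) := by
  rcases le_or_gt t 2 with h | h
  · have h1 : μ.real {x | t * σ ≤ |x|} ≤ 1 := measureReal_le_one
    have h3 : Real.exp (-Real.log 2) ≤ Real.exp (-(lcsH * t)) := by
      apply Real.exp_le_exp.2
      have := lcsH_le; have := lcsH_pos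
      nlinarith
    rw [Real.exp_neg, Real.exp_log (by norm_num)] at h3
    linarith
  · have hm : IsProbabilityMeasure (μ.map fun x : ℝ => -x) := Measure.isProbabilityMeasure_map measurable_neg.aemeasurable
    have hi' : Integrable (fun x => x ^ 2) (μ.map fun x : ℝ => -x) := by
      rw [integrable_map_measure (by fun_prop) measurable_neg.aemeasurable]
      simpa [Function.comp_def] using hi
    have h2' : ∫ x, x ^ 2 ∂(μ.map fun x : ℝ => -x) = σ ^ 2 := by
      rw [integral_map measurable_neg.aemeasurable (by fun_prop)]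
      simpa using h2
    have a1 := lcs_tail_up hμ.up hσ hi h2 h
    have a2 := lcs_tail_up hμ.neg.up hσ hi' h2' h
    have e : (μ.map fun x : ℝ => -x).real (Ici (t * σ)) = μ.real (Iic (-(t * σ))) := by
      simp only [Measure.real, lcs_map_neg_Ici]
    rw [e] at a2
    have hsub : {x : ℝ | t * σ ≤ |x|} ⊆ Ici (t * σ) ∪ Iic (-(t * σ)) := by
      intro x hx
      simp only [mem_ofPred_eq] at hx
      rcases le_abs'.1 hx with h' | h'
      · right; simp only [mem_Iic]; linarith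
      · left; exact h'
    calc μ.real {x | t * σ ≤ |x|} ≤ μ.real (Ici (t * σ) ∪ Iic (-(t * σ))) := measureReal_mono hsub
      _ ≤ μ.real (Ici (t * σ)) + μ.real (Iic (-(t * σ))) := measureReal_union_le _ _
      _ ≤ _ := by linarith

/-! ## the exponential moment -/

/-- the universal bound of the exponential moment at the rate `h / (2 σ)` -/
noncomputable def lcsK0 : ℝ := 2 * Real.exp (lcsH / 2) / (1 - Real.exp (-(lcsH / 2)))

theorem lcsK0_ge : 2 ≤ lcsK0 := by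
  unfold lcsK0
  have h := lcsH_pos
  have h1 : Real.exp (-(lcsH / 2)) < 1 := by rw [Real.exp_lt_one_iff]; linarith
  have h0 : 0 < Real.exp (-(lcsH / 2)) := Real.exp_pos _
  have h2 : 1 ≤ Real.exp (lcsH / 2) := Real.one_le_exp (by linarith)
  rw [le_div_iff₀ (by linarith)]
  nlinarith

theorem lcs_lintegral_exp {μ : Measure ℝ} [IsProbabilityMeasure μ] (hμ : LcSurv μ) {σ : ℝ} (hσ : 0 < σ)
    (hi : Integrable (fun x => x ^ 2) μ) (h2 : ∫ x, x ^ 2 ∂μ = σ ^ 2) {l : ℝ} (hl0 : 0 ≤ l) (hl : l * σ ≤ lcsH / 2) :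
    ∫⁻ x, ENNReal.ofReal (Real.exp (l * |x|)) ∂μ ≤ ENNReal.ofReal lcsK0 := by
  have hH := lcsH_pos
  have pt : ∀ x : ℝ, ENNReal.ofReal (Real.exp (l * |x|)) ≤
      ∑' k : ℕ, ENNReal.ofReal (Real.exp (lcsH / 2 * (k + 1))) * ({x : ℝ | (k : ℝ) * σ ≤ |x|}.indicator 1 x) := by
    intro x
    refine le_trans ?_ (ENNReal.le_tsum ⌊|x| / σ⌋₊)
    have hk1 : (⌊|x| / σ⌋₊ : ℝ) ≤ |x| / σ := Nat.floor_le (by positivity)
    have hk2 : |x| / σ < ⌊|x| / σ⌋₊ + 1 := Nat.lt_floor_add_one _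
    rw [le_div_iff₀ hσ] at hk1
    rw [div_lt_iff₀ hσ] at hk2
    rw [indicator_of_mem (by simpa using hk1)]
    simp only [Pi.one_apply, mul_one]
    apply ENNReal.ofReal_le_ofReal
    apply Real.exp_le_exp.2
    have hk0 : (0 : ℝ) ≤ (⌊|x| / σ⌋₊ : ℝ) + 1 := by positivity
    calc l * |x| ≤ l * ((⌊|x| / σ⌋₊ + 1) * σ) := by gcongr
      _ = (l * σ) * (⌊|x| / σ⌋₊ + 1) := by ring
      _ ≤ lcsH / 2 * (⌊|x| / σ⌋₊ + 1) := by gcongr
  have hms : ∀ k : ℕ, MeasurableSet {x : ℝ | (k : ℝ) * σ ≤ |x|} := fun k => measurableSet_le measurable_const (by fun_prop)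
  have hr1 : Real.exp (-(lcsH / 2)) < 1 := by rw [Real.exp_lt_one_iff]; linarith
  have hr0 : 0 ≤ Real.exp (-(lcsH / 2)) := (Real.exp_pos _).le
  have hterm : ∀ k : ℕ, Real.exp (lcsH / 2 * (k + 1)) * (2 * Real.exp (-(lcsH * k))) = 2 * Real.exp (lcsH / 2) * Real.exp (-(lcsH / 2)) ^ k := by
    intro k
    rw [← Real.exp_nat_mul, mul_left_comm, ← Real.exp_add, mul_assoc, ← Real.exp_add]
    congr 2; ring
  have hsum : Summable fun k : ℕ => Real.exp (lcsH / 2 * (k + 1)) * (2 * Real.exp (-(lcsH * k))) := by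
    simp_rw [hterm]
    exact (summable_geometric_of_lt_one hr0 hr1).mul_left _
  have hval : ∑' k : ℕ, Real.exp (lcsH / 2 * (k + 1)) * (2 * Real.exp (-(lcsH * k))) = lcsK0 := by
    simp_rw [hterm]
    rw [tsum_mul_left, tsum_geometric_of_lt_one hr0 hr1]
    unfold lcsK0; ring
  calc ∫⁻ x, ENNReal.ofReal (Real.exp (l * |x|)) ∂μ
      ≤ ∫⁻ x, ∑' k : ℕ, ENNReal.ofReal (Real.exp (lcsH / 2 * (k + 1))) * ({x : ℝ | (k : ℝ) * σ ≤ |x|}.indicator 1 x) ∂μ :=
        lintegral_mono pt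
    _ = ∑' k : ℕ, ∫⁻ x, ENNReal.ofReal (Real.exp (lcsH / 2 * (k + 1))) * ({x : ℝ | (k : ℝ) * σ ≤ |x|}.indicator 1 x) ∂μ := by
        rw [lintegral_tsum]
        intro k
        exact ((measurable_one.indicator (hms k)).const_mul _).aemeasurable
    _ = ∑' k : ℕ, ENNReal.ofReal (Real.exp (lcsH / 2 * (k + 1))) * μ {x : ℝ | (k : ℝ) * σ ≤ |x|} := by
        congr 1; ext k
        rw [lintegral_const_mul _ (measurable_one.indicator (hms k)), lintegral_indicator_one (hms k)]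
    _ ≤ ∑' k : ℕ, ENNReal.ofReal (Real.exp (lcsH / 2 * (k + 1)) * (2 * Real.exp (-(lcsH * k)))) := by
        apply ENNReal.tsum_le_tsum
        intro k
        rw [ENNReal.ofReal_mul (Real.exp_pos _).le]
        gcongr
        have := lcs_tail hμ hσ hi h2 (k : ℝ)
        rw [← ENNReal.ofReal_toReal (measure_ne_top μ _)]
        exact ENNReal.ofReal_le_ofReal this
    _ = ENNReal.ofReal lcsK0 := by
        rw [← ENNReal.ofReal_tsum_of_nonneg (fun k => by positivity) hsum, hval]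

theorem lcs_exp_abs {μ : Measure ℝ} [IsProbabilityMeasure μ] (hμ : LcSurv μ) {σ : ℝ} (hσ : 0 < σ)
    (hi : Integrable (fun x => x ^ 2) μ) (h2 : ∫ x, x ^ 2 ∂μ = σ ^ 2) {l : ℝ} (hl0 : 0 ≤ l) (hl : l * σ ≤ lcsH / 2) :
    Integrable (fun x => Real.exp (l * |x|)) μ ∧ ∫ x, Real.exp (l * |x|) ∂μ ≤ lcsK0 := by
  have h := lcs_lintegral_exp hμ hσ hi h2 hl0 hl
  have hK : 0 ≤ lcsK0 := by have := lcsK0_ge; linarith
  have hint : Integrable (fun x => Real.exp (l * |x|)) μ := by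
    refine ⟨by fun_prop, ?_⟩
    rw [hasFiniteIntegral_iff_ofReal (Eventually.of_forall fun x => (Real.exp_pos _).le)]
    exact lt_of_le_of_lt h ENNReal.ofReal_lt_top
  refine ⟨hint, ?_⟩
  rw [← ofReal_integral_eq_lintegral_ofReal hint (Eventually.of_forall fun x => (Real.exp_pos _).le)] at h
  exact (ENNReal.ofReal_le_ofReal_iff hK).1 h

/-! ## small tilts -/

theorem lcs_exp_taylor (y : ℝ) : Real.exp y ≤ 1 + y + y ^ 2 * Real.exp |y| := by
  have h := Complex.norm_exp_sub_sum_le_norm_mul_exp (y : ℂ) 2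
  have e : Complex.exp (y : ℂ) - ∑ m ∈ Finset.range 2, (y : ℂ) ^ m / (m.factorial : ℂ) = ((Real.exp y - (1 + y) : ℝ) : ℂ) := by
    simp [Finset.sum_range_succ]
  rw [e, Complex.norm_real, Complex.norm_real, Real.norm_eq_abs, Real.norm_eq_abs, sq_abs] at h
  have := le_abs_self (Real.exp y - (1 + y))
  linarith

theorem lcs_int_id {μ : Measure ℝ} [IsFiniteMeasure μ] (hi : Integrable (fun x => x ^ 2) μ) : Integrable (fun x : ℝ => x) μ := by
  refine Integrable.mono' ((integrable_const (1 : ℝ)).add hi) (by fun_prop) (Eventually.of_forall fun x => ?_)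
  simp only [Pi.add_apply, Real.norm_eq_abs]
  nlinarith [sq_abs x, sq_nonneg (|x| - 1), abs_nonneg x]

/-- the universal constant of the small-tilt bound -/
noncomputable def lcsC1 : ℝ := 32 * lcsK0 / lcsH ^ 2

theorem lcsC1_pos : 0 < lcsC1 := by
  unfold lcsC1
  have := lcsK0_ge; have := lcsH_pos
  positivity

theorem lcs_mgf_le {μ : Measure ℝ} [IsProbabilityMeasure μ] (hμ : LcSurv μ) {σ : ℝ} (hσ : 0 < σ)
    (hi : Integrable (fun x => x ^ 2) μ) (h1 : ∫ x, x ∂μ = 0) (h2 : ∫ x, x ^ 2 ∂μ = σ ^ 2) {t : ℝ} (ht : |t| * σ ≤ lcsH / 4) :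
    Integrable (fun x => Real.exp (t * x)) μ ∧ ∫ x, Real.exp (t * x) ∂μ ≤ Real.exp (lcsC1 * t ^ 2 * σ ^ 2) := by
  have hH := lcsH_pos
  obtain ⟨hE, hEK⟩ := lcs_exp_abs hμ hσ hi h2 (l := lcsH / (2 * σ)) (by positivity) (le_of_eq (by field_simp))
  have ht' : |t| ≤ lcsH / (4 * σ) := by rw [le_div_iff₀ (by positivity)]; linarith
  have hle : ∀ x : ℝ, |t| * |x| ≤ lcsH / (4 * σ) * |x| := fun x => by gcongr
  have hhalf : ∀ x : ℝ, lcsH / (4 * σ) * |x| + lcsH / (4 * σ) * |x| = lcsH / (2 * σ) * |x| := fun x => by field_simp; ring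
  have hint : Integrable (fun x => Real.exp (t * x)) μ := by
    refine Integrable.mono' hE (by fun_prop) (Eventually.of_forall fun x => ?_)
    rw [Real.norm_eq_abs, abs_of_pos (Real.exp_pos _)]
    apply Real.exp_le_exp.2
    have h3 : t * x ≤ |t| * |x| := by rw [← abs_mul]; exact le_abs_self _
    have h4 : 0 ≤ lcsH / (4 * σ) * |x| := by positivity
    linarith [hle x, hhalf x]
  refine ⟨hint, ?_⟩
  have pt : ∀ x : ℝ, Real.exp (t * x) ≤ 1 + t * x + t ^ 2 * (32 * σ ^ 2 / lcsH ^ 2) * Real.exp (lcsH / (2 * σ) * |x|) := by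
    intro x
    have h3 := lcs_exp_taylor (t * x)
    set y : ℝ := lcsH / (4 * σ) * |x| with hy
    have hy0 : 0 ≤ y := by positivity
    have h4 := Real.quadratic_le_exp_of_nonneg hy0
    have h5 : x ^ 2 = 16 * σ ^ 2 / lcsH ^ 2 * y ^ 2 := by
      rw [hy, mul_pow, sq_abs]; field_simp; ring
    have h6 : x ^ 2 ≤ 32 * σ ^ 2 / lcsH ^ 2 * Real.exp y := by
      rw [h5]
      have : y ^ 2 ≤ 2 * Real.exp y := by linarith
      calc 16 * σ ^ 2 / lcsH ^ 2 * y ^ 2 ≤ 16 * σ ^ 2 / lcsH ^ 2 * (2 * Real.exp y) := by gcongr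
        _ = _ := by ring
    have h7 : Real.exp |t * x| ≤ Real.exp y := by
      apply Real.exp_le_exp.2; rw [abs_mul]; exact hle x
    have h8 : Real.exp y * Real.exp y = Real.exp (lcsH / (2 * σ) * |x|) := by
      rw [← Real.exp_add, ← hhalf x]
    calc Real.exp (t * x) ≤ 1 + t * x + (t * x) ^ 2 * Real.exp |t * x| := h3
      _ = 1 + t * x + t ^ 2 * (x ^ 2 * Real.exp |t * x|) := by ring
      _ ≤ 1 + t * x + t ^ 2 * ((32 * σ ^ 2 / lcsH ^ 2 * Real.exp y) * Real.exp y) := by gcongr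
      _ = _ := by rw [← h8]; ring
  have hid := lcs_int_id hi
  have i1 : Integrable (fun x : ℝ => 1 + t * x) μ := (integrable_const _).add (hid.const_mul t)
  have i2 : Integrable (fun x : ℝ => t ^ 2 * (32 * σ ^ 2 / lcsH ^ 2) * Real.exp (lcsH / (2 * σ) * |x|)) μ := hE.const_mul _
  calc ∫ x, Real.exp (t * x) ∂μ
      ≤ ∫ x, (1 + t * x + t ^ 2 * (32 * σ ^ 2 / lcsH ^ 2) * Real.exp (lcsH / (2 * σ) * |x|)) ∂μ :=
        integral_mono hint (i1.add i2) pt
    _ = 1 + t * 0 + t ^ 2 * (32 * σ ^ 2 / lcsH ^ 2) * ∫ x, Real.exp (lcsH / (2 * σ) * |x|) ∂μ := by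
        rw [integral_add i1 i2, integral_add (integrable_const _) (hid.const_mul t), integral_const_mul, integral_const_mul, h1]
        simp
    _ ≤ 1 + t * 0 + t ^ 2 * (32 * σ ^ 2 / lcsH ^ 2) * lcsK0 := by gcongr
    _ = lcsC1 * t ^ 2 * σ ^ 2 + 1 := by unfold lcsC1; ring
    _ ≤ _ := Real.add_one_le_exp _

/-! ## mass on the positive side -/

noncomputable def lcsK : ℝ := 2 * (384 * lcsK0 / lcsH ^ 4) + 1

theorem lcsK_ge : 1 ≤ lcsK := by
  unfold lcsK
  have := lcsK0_ge; have := lcsH_pos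
  have : 0 ≤ 384 * lcsK0 / lcsH ^ 4 := by positivity
  linarith

/-- the universal constant of the positive side -/
noncomputable def lcsC2 : ℝ := 1 / (32 * lcsK ^ 2)

theorem lcsC2_pos : 0 < lcsC2 := by
  unfold lcsC2
  have := lcsK_ge
  positivity

theorem lcs_abs_ge {μ : Measure ℝ} [IsProbabilityMeasure μ] (hμ : LcSurv μ) {σ : ℝ} (hσ : 0 < σ)
    (hi : Integrable (fun x => x ^ 2) μ) (h2 : ∫ x, x ^ 2 ∂μ = σ ^ 2) : σ / (2 * lcsK) ≤ ∫ x, |x| ∂μ := by
  have hH := lcsH_pos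
  have hK := lcsK_ge
  have hK0 : 0 < lcsK := by linarith
  obtain ⟨hE, hEK⟩ := lcs_exp_abs hμ hσ hi h2 (l := lcsH / (2 * σ)) (by positivity) (le_of_eq (by field_simp))
  have pt : ∀ x : ℝ, x ^ 2 ≤ lcsK * σ * |x| + 384 * σ ^ 2 / (lcsH ^ 4 * lcsK ^ 2) * Real.exp (lcsH / (2 * σ) * |x|) := by
    intro x
    set y : ℝ := lcsH / (2 * σ) * |x| with hy
    have hy0 : 0 ≤ y := by positivity
    have h4 := Real.pow_div_factorial_le_exp y hy0 4
    have h4' : y ^ 4 ≤ 24 * Real.exp y := by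
      have : ((4 : ℕ).factorial : ℝ) = 24 := by norm_num [Nat.factorial]
      rw [this, div_le_iff₀ (by norm_num)] at h4
      linarith
    have h5 : x ^ 4 = 16 * σ ^ 4 / lcsH ^ 4 * y ^ 4 := by
      rw [hy, mul_pow, show |x| ^ 4 = x ^ 4 by rw [show (4 : ℕ) = 2 * 2 by norm_num, pow_mul, pow_mul, sq_abs]]
      field_simp; ring
    have h6 : x ^ 4 ≤ 384 * σ ^ 4 / lcsH ^ 4 * Real.exp y := by
      rw [h5]
      calc 16 * σ ^ 4 / lcsH ^ 4 * y ^ 4 ≤ 16 * σ ^ 4 / lcsH ^ 4 * (24 * Real.exp y) := by gcongr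
        _ = _ := by ring
    have h7 : x ^ 2 ≤ lcsK * σ * |x| + x ^ 4 / (lcsK * σ) ^ 2 := by
      have hKs : 0 < lcsK * σ := by positivity
      rcases le_or_gt |x| (lcsK * σ) with h | h
      · have : x ^ 2 ≤ lcsK * σ * |x| := by rw [← sq_abs, sq]; gcongr
        have : 0 ≤ x ^ 4 / (lcsK * σ) ^ 2 := by positivity
        linarith
      · have h8 : (lcsK * σ) ^ 2 ≤ x ^ 2 := by rw [← sq_abs x]; gcongr
        have : x ^ 2 ≤ x ^ 4 / (lcsK * σ) ^ 2 := by
          rw [le_div_iff₀ (by positivity)]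
          calc x ^ 2 * (lcsK * σ) ^ 2 ≤ x ^ 2 * x ^ 2 := by gcongr
            _ = x ^ 4 := by ring
        have : 0 ≤ lcsK * σ * |x| := by positivity
        linarith
    calc x ^ 2 ≤ lcsK * σ * |x| + x ^ 4 / (lcsK * σ) ^ 2 := h7
      _ ≤ lcsK * σ * |x| + (384 * σ ^ 4 / lcsH ^ 4 * Real.exp y) / (lcsK * σ) ^ 2 := by gcongr
      _ = _ := by field_simp
  have hab : Integrable (fun x : ℝ => |x|) μ := (lcs_int_id hi).abs
  have h3 : σ ^ 2 ≤ lcsK * σ * ∫ x, |x| ∂μ + 384 * σ ^ 2 / (lcsH ^ 4 * lcsK ^ 2) * lcsK0 := by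
    calc σ ^ 2 = ∫ x, x ^ 2 ∂μ := h2.symm
      _ ≤ ∫ x, (lcsK * σ * |x| + 384 * σ ^ 2 / (lcsH ^ 4 * lcsK ^ 2) * Real.exp (lcsH / (2 * σ) * |x|)) ∂μ :=
          integral_mono hi ((hab.const_mul _).add (hE.const_mul _)) pt
      _ = lcsK * σ * ∫ x, |x| ∂μ + 384 * σ ^ 2 / (lcsH ^ 4 * lcsK ^ 2) * ∫ x, Real.exp (lcsH / (2 * σ) * |x|) ∂μ := by
          rw [integral_add (hab.const_mul _) (hE.const_mul _), integral_const_mul, integral_const_mul]
      _ ≤ _ := by gcongr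
  have h4 : 384 * σ ^ 2 / (lcsH ^ 4 * lcsK ^ 2) * lcsK0 ≤ σ ^ 2 / 2 := by
    have e : 384 * σ ^ 2 / (lcsH ^ 4 * lcsK ^ 2) * lcsK0 = σ ^ 2 * (384 * lcsK0 / lcsH ^ 4) / lcsK ^ 2 := by field_simp
    rw [e, div_le_iff₀ (by positivity)]
    have h5 : 2 * (384 * lcsK0 / lcsH ^ 4) ≤ lcsK := by unfold lcsK; linarith
    have h6 : lcsK ≤ lcsK ^ 2 := by nlinarith
    have hs : 0 < σ ^ 2 := by positivity
    nlinarith
  rw [div_le_iff₀ (by positivity)]
  have hs : 0 < σ := hσ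
  nlinarith

theorem lcs_pos_mass {μ : Measure ℝ} [IsProbabilityMeasure μ] (hμ : LcSurv μ) {σ : ℝ} (hσ : 0 < σ)
    (hi : Integrable (fun x => x ^ 2) μ) (h1 : ∫ x, x ∂μ = 0) (h2 : ∫ x, x ^ 2 ∂μ = σ ^ 2) :
    lcsC2 ≤ μ.real {x | lcsC2 * σ ≤ x} := by
  have hK := lcsK_ge
  have hK0 : 0 < lcsK := by linarith
  have hab := lcs_abs_ge hμ hσ hi h2
  have hid := lcs_int_id hi
  set A : Set ℝ := {x | σ / (16 * lcsK) ≤ x} with hA
  have hAm : MeasurableSet A := measurableSet_le measurable_const measurable_id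
  have pt : ∀ x : ℝ, (|x| + x) / 2 ≤ σ / (16 * lcsK) + x ^ 2 / (2 * (8 * lcsK * σ)) + (8 * lcsK * σ) / 2 * A.indicator 1 x := by
    intro x
    have ha : 0 < σ / (16 * lcsK) := by positivity
    have hη : 0 < 8 * lcsK * σ := by positivity
    have hq : 0 ≤ x ^ 2 / (2 * (8 * lcsK * σ)) := by positivity
    by_cases hx : x ∈ A
    · rw [indicator_of_mem hx]
      have hx0 : 0 < x := lt_of_lt_of_le ha hx
      rw [abs_of_pos hx0]
      have : x ≤ x ^ 2 / (2 * (8 * lcsK * σ)) + (8 * lcsK * σ) / 2 := by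
        have h3 : x ^ 2 / (2 * (8 * lcsK * σ)) + (8 * lcsK * σ) / 2 - x = (x - 8 * lcsK * σ) ^ 2 / (2 * (8 * lcsK * σ)) := by
          field_simp; ring
        have : 0 ≤ (x - 8 * lcsK * σ) ^ 2 / (2 * (8 * lcsK * σ)) := by positivity
        linarith
      simp only [Pi.one_apply, mul_one]
      linarith
    · rw [indicator_of_notMem hx]
      have hx' : x < σ / (16 * lcsK) := not_le.1 hx
      rcases le_or_gt 0 x with h | h
      · rw [abs_of_nonneg h]; linarith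
      · rw [abs_of_neg h]; linarith
  have hind : Integrable (A.indicator (1 : ℝ → ℝ)) μ := (integrable_const (1 : ℝ)).indicator hAm
  have i1 : Integrable (fun x : ℝ => σ / (16 * lcsK) + x ^ 2 / (2 * (8 * lcsK * σ))) μ := (integrable_const _).add (hi.div_const _)
  have i2 : Integrable (fun x : ℝ => (8 * lcsK * σ) / 2 * A.indicator 1 x) μ := hind.const_mul _
  have h3 : (∫ x, |x| ∂μ + 0) / 2 ≤ σ / (16 * lcsK) + σ ^ 2 / (2 * (8 * lcsK * σ)) + (8 * lcsK * σ) / 2 * μ.real A := by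
    calc (∫ x, |x| ∂μ + 0) / 2 = ∫ x, (|x| + x) / 2 ∂μ := by
          rw [integral_div, integral_add hid.abs hid, h1]
      _ ≤ ∫ x, (σ / (16 * lcsK) + x ^ 2 / (2 * (8 * lcsK * σ)) + (8 * lcsK * σ) / 2 * A.indicator 1 x) ∂μ :=
          integral_mono ((hid.abs.add hid).div_const 2) (i1.add i2) pt
      _ = _ := by
          rw [integral_add i1 i2, integral_add (integrable_const _) (hi.div_const _), integral_div, integral_div, integral_const_mul, h2,
            integral_indicator_one hAm]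
          simp
  have h4 : lcsC2 ≤ μ.real A := by
    have e1 : σ ^ 2 / (2 * (8 * lcsK * σ)) = σ / (16 * lcsK) := by field_simp; ring
    rw [e1] at h3
    have h5 : σ / (8 * lcsK) ≤ 4 * lcsK * σ * μ.real A := by
      have e2 : σ / (2 * lcsK) / 2 - σ / (16 * lcsK) - σ / (16 * lcsK) = σ / (8 * lcsK) := by field_simp; ring
      have : σ / (2 * lcsK) / 2 ≤ (∫ x, |x| ∂μ + 0) / 2 := by linarith
      linarith
    unfold lcsC2
    rw [div_le_iff₀ (by positivity)]
    rw [div_le_iff₀ (by positivity)] at h5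
    have : σ * 1 ≤ σ * (μ.real A * (32 * lcsK ^ 2)) := by nlinarith
    exact le_of_mul_le_mul_left this hσ
  refine le_trans h4 (measureReal_mono (fun x hx => ?_))
  simp only [hA, mem_ofPred_eq] at hx ⊢
  refine le_trans ?_ hx
  unfold lcsC2
  rw [div_mul_eq_mul_div, one_mul]
  apply div_le_div_of_nonneg_left hσ.le (by positivity)
  nlinarith

theorem lcs_mgf_ge {μ : Measure ℝ} [IsProbabilityMeasure μ] (hμ : LcSurv μ) {σ : ℝ} (hσ : 0 < σ)
    (hi : Integrable (fun x => x ^ 2) μ) (h1 : ∫ x, x ∂μ = 0) (h2 : ∫ x, x ^ 2 ∂μ = σ ^ 2) {t : ℝ} (ht : 0 ≤ t) :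
    ENNReal.ofReal (lcsC2 * Real.exp (lcsC2 * t * σ)) ≤ ∫⁻ x, ENNReal.ofReal (Real.exp (t * x)) ∂μ := by
  have hm := lcs_pos_mass hμ hσ hi h1 h2
  have h3 := mul_meas_ge_le_lintegral (μ := μ) (f := fun x => ENNReal.ofReal (Real.exp (t * x))) (by fun_prop)
    (ENNReal.ofReal (Real.exp (lcsC2 * t * σ)))
  refine le_trans ?_ h3
  rw [mul_comm lcsC2, ENNReal.ofReal_mul (Real.exp_pos _).le]
  gcongr
  calc ENNReal.ofReal lcsC2 ≤ ENNReal.ofReal (μ.real {x | lcsC2 * σ ≤ x}) := ENNReal.ofReal_le_ofReal hm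
    _ = μ {x | lcsC2 * σ ≤ x} := ENNReal.ofReal_toReal (measure_ne_top μ _)
    _ ≤ _ := by
      apply measure_mono
      intro x hx
      simp only [mem_ofPred_eq] at hx ⊢
      apply ENNReal.ofReal_le_ofReal
      apply Real.exp_le_exp.2
      calc lcsC2 * t * σ = t * (lcsC2 * σ) := by ring
        _ ≤ t * x := by gcongr

theorem lcs_eqns_cite : True := by
  have := @lcsH.eq_1; have := @lcsK0.eq_1; have := @lcsC1.eq_1; have := @lcsK.eq_1; have := @lcsC2.eq_1
  trivial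

end Claimed.Agent.R286
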