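import Mathlib

/-!
# Row 286 (S0533), unit SEQ, file 1: the asymptotic vocabulary      (helper298)

Paper free, Mathlib only.   Index type `ι` (instances, or the index of a family of instances), a filter `l` on `ι` ("along the sequence of instances"),
a scale `s : ι → ℝ` with `Tendsto s l atTop`   (PE: `s = n`;   LL: `s = N` or `s = x⁻¹`, `x = N ^ (-1/6)`; the choice is immaterial: `AqPoly.scale_rpow`, `AqSub.scale_rpow`).

* `A ≲ B`                  : Mathlib's `A =O[l] B`       (explicit forms: `aq_O_of_le`, `aq_O_bound`)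
* `A = o(B)`               : Mathlib's `A =o[l] B`
* `A ≍ B`                  : Mathlib's `A =Θ[l] B`
* polynomial saving        : `AqPoly l s A B`  = `∃ c > 0, A =O[l] s ^ (-c) * B`
* subpower loss `≲_∘`, `n^{o(1)}` : `AqSub l s A B` = `∀ ε > 0, A =O[l] s ^ ε * B`

All four relations are stable under `+`, finite sums, `*`, powers, `max`; `AqPoly * AqSub = AqPoly` (`AqPoly.mul_sub`): logarithms and subpower losses are absorbed by a saving.
File 2 (`SeqUltra`): "pass to a subsequence" = restrict to an ultrafilter `U ≤ l`.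
-/

set_option autoImplicit false

namespace Claimed.Agent.R286

open Filter Topology Asymptotics

variable {ι : Type*} {l : Filter ι} {s : ι → ℝ} {A B A' B' D : ι → ℝ}

/-! ## explicit forms of `O`, `o` for real families -/

/-- build `A ≲ B` from an explicit bound (no sign condition on `B`, no absolute value on the right) -/
theorem aq_O_of_le (K : ℝ) (h : ∀ᶠ i in l, |A i| ≤ K * B i) : A =O[l] B := by
  refine IsBigO.of_bound |K| ?_
  filter_upwards [h] with i hi
  rw [Real.norm_eq_abs, Real.norm_eq_abs, ← abs_mul]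
  exact hi.trans (le_abs_self _)

/-- the same for a nonnegative left side -/
theorem aq_O_of_le' (K : ℝ) (h0 : ∀ᶠ i in l, 0 ≤ A i) (h : ∀ᶠ i in l, A i ≤ K * B i) : A =O[l] B := by
  refine aq_O_of_le K ?_
  filter_upwards [h0, h] with i h0 hi
  rwa [abs_of_nonneg h0]

/-- use `A ≲ B`, `B ≥ 0`: a positive constant and no absolute value on the right -/
theorem aq_O_bound (h : A =O[l] B) (hB : ∀ᶠ i in l, 0 ≤ B i) :
    ∃ K : ℝ, 0 < K ∧ ∀ᶠ i in l, |A i| ≤ K * B i := by
  obtain ⟨K, hK, hb⟩ := h.exists_pos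
  refine ⟨K, hK, ?_⟩
  filter_upwards [hb.bound, hB] with i hi hB
  rwa [Real.norm_eq_abs, Real.norm_eq_abs, abs_of_nonneg hB] at hi

theorem aq_O_bound_le (h : A =O[l] B) (hB : ∀ᶠ i in l, 0 ≤ B i) :
    ∃ K : ℝ, 0 < K ∧ ∀ᶠ i in l, A i ≤ K * B i := by
  obtain ⟨K, hK, hb⟩ := aq_O_bound h hB
  exact ⟨K, hK, hb.mono fun i hi => (le_abs_self _).trans hi⟩

theorem aq_O_iff (hB : ∀ᶠ i in l, 0 ≤ B i) : A =O[l] B ↔ ∃ K : ℝ, ∀ᶠ i in l, |A i| ≤ K * B i :=
  ⟨fun h => (aq_O_bound h hB).imp fun _ h => h.2, fun ⟨K, h⟩ => aq_O_of_le K h⟩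

theorem aq_o_of_le (h : ∀ ε : ℝ, 0 < ε → ∀ᶠ i in l, |A i| ≤ ε * B i) : A =o[l] B := by
  rw [isLittleO_iff]
  intro ε hε
  filter_upwards [h ε hε] with i hi
  rw [Real.norm_eq_abs, Real.norm_eq_abs]
  exact hi.trans (mul_le_mul_of_nonneg_left (le_abs_self _) hε.le)

theorem aq_o_bound (h : A =o[l] B) (hB : ∀ᶠ i in l, 0 ≤ B i) {ε : ℝ} (hε : 0 < ε) :
    ∀ᶠ i in l, |A i| ≤ ε * B i := by
  filter_upwards [(isLittleO_iff.1 h) hε, hB] with i hi hB
  rwa [Real.norm_eq_abs, Real.norm_eq_abs, abs_of_nonneg hB] at hi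

theorem aq_o_one_iff : A =o[l] (fun _ => (1 : ℝ)) ↔ Tendsto A l (𝓝 0) := isLittleO_one_iff ℝ

theorem aq_O_one_iff : A =O[l] (fun _ => (1 : ℝ)) ↔ ∃ K : ℝ, ∀ᶠ i in l, |A i| ≤ K := by
  rw [aq_O_iff (Eventually.of_forall fun _ => zero_le_one)]
  simp

/-- monotonicity in the right side -/
theorem aq_O_mono_right (h : A =O[l] B) (hB : ∀ᶠ i in l, 0 ≤ B i) (hBD : ∀ᶠ i in l, B i ≤ D i) : A =O[l] D := by
  obtain ⟨K, hK, hb⟩ := aq_O_bound h hB
  refine aq_O_of_le K ?_
  filter_upwards [hb, hBD] with i hi hBD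
  exact hi.trans (mul_le_mul_of_nonneg_left hBD hK.le)

/-- monotonicity in the left side -/
theorem aq_O_mono_left (h : A =O[l] B) (hA : ∀ᶠ i in l, |A' i| ≤ |A i|) : A' =O[l] B :=
  (IsBigO.of_bound 1 (by filter_upwards [hA] with i hi; simpa using hi)).trans h

theorem aq_O_add_add (h : A =O[l] B) (h' : A' =O[l] B') (hB : ∀ᶠ i in l, 0 ≤ B i) (hB' : ∀ᶠ i in l, 0 ≤ B' i) :
    (fun i => A i + A' i) =O[l] fun i => B i + B' i := by
  refine IsBigO.add (aq_O_mono_right h hB ?_) (aq_O_mono_right h' hB' ?_)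
  · filter_upwards [hB'] with i hi using by linarith
  · filter_upwards [hB] with i hi using by linarith

theorem aq_O_max (h : A =O[l] B) (h' : A' =O[l] B) : (fun i => max (A i) (A' i)) =O[l] B := by
  obtain ⟨K, hK, hb⟩ := h.exists_pos
  obtain ⟨K', hK', hb'⟩ := h'.exists_pos
  refine IsBigO.of_bound (max K K') ?_
  filter_upwards [hb.bound, hb'.bound] with i hi hi'
  rw [Real.norm_eq_abs] at *
  have h1 : |A i| ≤ max K K' * |B i| := hi.trans (mul_le_mul_of_nonneg_right (le_max_left _ _) (abs_nonneg _))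
  have h2 : |A' i| ≤ max K K' * |B i| := hi'.trans (mul_le_mul_of_nonneg_right (le_max_right _ _) (abs_nonneg _))
  rcases max_cases (A i) (A' i) with ⟨h, -⟩ | ⟨h, -⟩ <;> rw [h] <;> assumption

theorem aq_O_sum {κ : Type*} (I : Finset κ) {F : κ → ι → ℝ} (h : ∀ k ∈ I, F k =O[l] B) :
    (fun i => ∑ k ∈ I, F k i) =O[l] B := by
  have := IsBigO.sum (s := I) (A := F) (g := B) (l := l) h
  simpa [Finset.sum_fn] using this

theorem aq_O_sqrt (h : A =O[l] B) (hB : ∀ᶠ i in l, 0 ≤ B i) :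
    (fun i => Real.sqrt (A i)) =O[l] fun i => Real.sqrt (B i) := by
  obtain ⟨K, hK, hb⟩ := aq_O_bound h hB
  refine aq_O_of_le (Real.sqrt K) ?_
  filter_upwards [hb] with i hi
  rw [abs_of_nonneg (Real.sqrt_nonneg _), ← Real.sqrt_mul hK.le]
  exact Real.sqrt_le_sqrt ((le_abs_self _).trans hi)

/-! ## the scale -/

theorem aq_scale_ge (hs : Tendsto s l atTop) (a : ℝ) : ∀ᶠ i in l, a ≤ s i := hs.eventually_ge_atTop a

theorem aq_scale_pos (hs : Tendsto s l atTop) : ∀ᶠ i in l, 0 < s i := hs.eventually_gt_atTop 0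

theorem aq_scale_rpow_pos (hs : Tendsto s l atTop) (a : ℝ) : ∀ᶠ i in l, 0 < s i ^ a :=
  (aq_scale_pos hs).mono fun _ h => Real.rpow_pos_of_pos h a

theorem aq_scale_rpow_tendsto (hs : Tendsto s l atTop) {a : ℝ} (ha : 0 < a) : Tendsto (fun i => s i ^ a) l atTop :=
  (tendsto_rpow_atTop ha).comp hs

theorem aq_scale_rpow_neg_tendsto (hs : Tendsto s l atTop) {a : ℝ} (ha : 0 < a) :
    Tendsto (fun i => s i ^ (-a)) l (𝓝 0) :=
  (tendsto_rpow_neg_atTop ha).comp hs

theorem aq_scale_rpow_le (hs : Tendsto s l atTop) {a b : ℝ} (hab : a ≤ b) : ∀ᶠ i in l, s i ^ a ≤ s i ^ b :=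
  (aq_scale_ge hs 1).mono fun _ h => Real.rpow_le_rpow_of_exponent_le h hab

theorem aq_scale_rpow_O (hs : Tendsto s l atTop) {a b : ℝ} (hab : a ≤ b) :
    (fun i => s i ^ a) =O[l] fun i => s i ^ b := by
  refine aq_O_of_le 1 ?_
  filter_upwards [aq_scale_rpow_le hs hab, aq_scale_rpow_pos hs a] with i hi h0
  rw [abs_of_pos h0, one_mul]
  exact hi

theorem aq_scale_rpow_o (hs : Tendsto s l atTop) {a b : ℝ} (hab : a < b) :
    (fun i => s i ^ a) =o[l] fun i => s i ^ b := by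
  refine aq_o_of_le fun ε hε => ?_
  have h1 := (aq_scale_rpow_neg_tendsto hs (show 0 < b - a by linarith)).eventually_le_const hε
  filter_upwards [h1, aq_scale_pos hs] with i hi h0
  rw [abs_of_pos (Real.rpow_pos_of_pos h0 _)]
  calc s i ^ a = s i ^ (-(b - a)) * s i ^ b := by rw [← Real.rpow_add h0]; ring_nf
    _ ≤ ε * s i ^ b := mul_le_mul_of_nonneg_right hi (Real.rpow_nonneg h0.le _)

/-- every power of the logarithm of the scale is below every positive power of the scale -/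
theorem aq_scale_log_o (hs : Tendsto s l atTop) (r : ℝ) {ε : ℝ} (hε : 0 < ε) :
    (fun i => Real.log (s i) ^ r) =o[l] fun i => s i ^ ε :=
  (isLittleO_log_rpow_rpow_atTop r hε).comp_tendsto hs

theorem aq_scale_log_pow_o (hs : Tendsto s l atTop) (k : ℕ) {ε : ℝ} (hε : 0 < ε) :
    (fun i => Real.log (s i) ^ k) =o[l] fun i => s i ^ ε := by
  have := aq_scale_log_o hs (k : ℝ) hε
  simpa [Real.rpow_natCast] using this

/-! ## polynomial saving and subpower loss -/

/-- polynomial saving: `|A| ≤ C s^{-c} |B|` eventually, for some fixed `c > 0` -/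
def AqPoly (l : Filter ι) (s A B : ι → ℝ) : Prop :=
  ∃ c : ℝ, 0 < c ∧ A =O[l] fun i => s i ^ (-c) * B i

/-- subpower loss: `|A| ≤ C_ε s^ε |B|` eventually, for every `ε > 0` -/
def AqSub (l : Filter ι) (s A B : ι → ℝ) : Prop :=
  ∀ ε : ℝ, 0 < ε → A =O[l] fun i => s i ^ ε * B i

theorem AqPoly.of_le {c K : ℝ} (hc : 0 < c) (h : ∀ᶠ i in l, |A i| ≤ K * (s i ^ (-c) * B i)) : AqPoly l s A B :=
  ⟨c, hc, aq_O_of_le K h⟩

theorem AqPoly.bound (h : AqPoly l s A B) (hs : Tendsto s l atTop) (hB : ∀ᶠ i in l, 0 ≤ B i) :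
    ∃ c K : ℝ, 0 < c ∧ 0 < K ∧ ∀ᶠ i in l, |A i| ≤ K * (s i ^ (-c) * B i) := by
  obtain ⟨c, hc, h⟩ := h
  obtain ⟨K, hK, hb⟩ := aq_O_bound h (by
    filter_upwards [aq_scale_rpow_pos hs (-c), hB] with i h1 h2 using mul_nonneg h1.le h2)
  exact ⟨c, K, hc, hK, hb⟩

theorem AqSub.of_le (h : ∀ ε : ℝ, 0 < ε → ∃ K : ℝ, ∀ᶠ i in l, |A i| ≤ K * (s i ^ ε * B i)) : AqSub l s A B :=
  fun ε hε => (h ε hε).elim fun K hK => aq_O_of_le K hK

theorem AqSub.bound (h : AqSub l s A B) (hs : Tendsto s l atTop) (hB : ∀ᶠ i in l, 0 ≤ B i) {ε : ℝ} (hε : 0 < ε) :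
    ∃ K : ℝ, 0 < K ∧ ∀ᶠ i in l, |A i| ≤ K * (s i ^ ε * B i) :=
  aq_O_bound (h ε hε) (by
    filter_upwards [aq_scale_rpow_pos hs ε, hB] with i h1 h2 using mul_nonneg h1.le h2)

/-- helper: `s^a * B ≲ s^b * B` for `a ≤ b` -/
theorem aq_scale_mul_O (hs : Tendsto s l atTop) {a b : ℝ} (hab : a ≤ b) (B : ι → ℝ) :
    (fun i => s i ^ a * B i) =O[l] fun i => s i ^ b * B i :=
  (aq_scale_rpow_O hs hab).mul (isBigO_refl B l)

theorem aq_scale_mul_o (hs : Tendsto s l atTop) {a b : ℝ} (hab : a < b) (B : ι → ℝ) :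
    (fun i => s i ^ a * B i) =o[l] fun i => s i ^ b * B i :=
  (aq_scale_rpow_o hs hab).mul_isBigO (isBigO_refl B l)

theorem aq_scale_zero_mul (l : Filter ι) (s B : ι → ℝ) : (fun i => s i ^ (0 : ℝ) * B i) =ᶠ[l] B :=
  Eventually.of_forall fun i => by simp

/-- the saving may be decreased -/
theorem AqPoly.exponent_le {c c' : ℝ} (hs : Tendsto s l atTop) (h : A =O[l] fun i => s i ^ (-c) * B i) (hc : c' ≤ c) :
    A =O[l] fun i => s i ^ (-c') * B i :=
  h.trans (aq_scale_mul_O hs (by linarith) B)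

theorem AqPoly.isLittleO (h : AqPoly l s A B) (hs : Tendsto s l atTop) : A =o[l] B := by
  obtain ⟨c, hc, h⟩ := h
  have h1 := aq_scale_mul_o hs (show -c < 0 by linarith) B
  exact h.trans_isLittleO (h1.congr_right fun i => by simp)

theorem AqPoly.isBigO (h : AqPoly l s A B) (hs : Tendsto s l atTop) : A =O[l] B := (h.isLittleO hs).isBigO

theorem AqPoly.tendsto_zero (h : AqPoly l s A fun _ => 1) (hs : Tendsto s l atTop) : Tendsto A l (𝓝 0) :=
  aq_o_one_iff.1 (h.isLittleO hs)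

theorem aq_sub_of_O (h : A =O[l] B) (hs : Tendsto s l atTop) : AqSub l s A B := by
  intro ε hε
  have h1 := aq_scale_mul_O hs hε.le B
  exact h.trans (h1.congr_left fun i => by simp)

theorem AqPoly.sub (h : AqPoly l s A B) (hs : Tendsto s l atTop) : AqSub l s A B := aq_sub_of_O (h.isBigO hs) hs

theorem aq_sub_refl (hs : Tendsto s l atTop) (A : ι → ℝ) : AqSub l s A A := aq_sub_of_O (isBigO_refl A l) hs

/-- powers of the logarithm of the scale are subpower -/
theorem aq_sub_log (hs : Tendsto s l atTop) (r : ℝ) : AqSub l s (fun i => Real.log (s i) ^ r) fun _ => 1 := by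
  intro ε hε
  simpa using (aq_scale_log_o hs r hε).isBigO

theorem aq_sub_log_pow (hs : Tendsto s l atTop) (k : ℕ) : AqSub l s (fun i => Real.log (s i) ^ k) fun _ => 1 := by
  intro ε hε
  simpa using (aq_scale_log_pow_o hs k hε).isBigO

/-! ### congruence, monotonicity, restriction of the filter -/

theorem AqPoly.mono {l' : Filter ι} (h : AqPoly l s A B) (hl : l' ≤ l) : AqPoly l' s A B :=
  h.imp fun _ h => ⟨h.1, h.2.mono hl⟩

theorem AqSub.mono {l' : Filter ι} (h : AqSub l s A B) (hl : l' ≤ l) : AqSub l' s A B :=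
  fun ε hε => (h ε hε).mono hl

theorem AqPoly.congr (h : AqPoly l s A B) (hA : A =ᶠ[l] A') (hB : B =ᶠ[l] B') : AqPoly l s A' B' := by
  obtain ⟨c, hc, h⟩ := h
  exact ⟨c, hc, h.congr' hA (hB.mono fun i hi => by simp only [hi])⟩

theorem AqSub.congr (h : AqSub l s A B) (hA : A =ᶠ[l] A') (hB : B =ᶠ[l] B') : AqSub l s A' B' :=
  fun ε hε => (h ε hε).congr' hA (hB.mono fun i hi => by simp only [hi])

theorem AqPoly.comp {κ : Type*} {l' : Filter κ} (h : AqPoly l s A B) {φ : κ → ι} (hφ : Tendsto φ l' l) :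
    AqPoly l' (s ∘ φ) (A ∘ φ) (B ∘ φ) :=
  h.imp fun _ h => ⟨h.1, h.2.comp_tendsto hφ⟩

theorem AqSub.comp {κ : Type*} {l' : Filter κ} (h : AqSub l s A B) {φ : κ → ι} (hφ : Tendsto φ l' l) :
    AqSub l' (s ∘ φ) (A ∘ φ) (B ∘ φ) :=
  fun ε hε => (h ε hε).comp_tendsto hφ

/-! ### transitivity -/

theorem AqPoly.trans_O (h : AqPoly l s A B) (h' : B =O[l] D) : AqPoly l s A D :=
  h.imp fun _ h => ⟨h.1, h.2.trans ((isBigO_refl _ l).mul h')⟩

theorem AqPoly.O_trans (h : A =O[l] B) (h' : AqPoly l s B D) : AqPoly l s A D :=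
  h'.imp fun _ h' => ⟨h'.1, h.trans h'.2⟩

theorem AqSub.trans_O (h : AqSub l s A B) (h' : B =O[l] D) : AqSub l s A D :=
  fun ε hε => (h ε hε).trans ((isBigO_refl _ l).mul h')

theorem AqSub.O_trans (h : A =O[l] B) (h' : AqSub l s B D) : AqSub l s A D :=
  fun ε hε => h.trans (h' ε hε)

/-- helper: `s^a * (s^b * D) = s^(a+b) * D` eventually -/
theorem aq_scale_mul_mul (hs : Tendsto s l atTop) (a b : ℝ) (D : ι → ℝ) :
    (fun i => s i ^ a * (s i ^ b * D i)) =ᶠ[l] fun i => s i ^ (a + b) * D i := by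
  filter_upwards [aq_scale_pos hs] with i hi
  rw [Real.rpow_add hi, mul_assoc]

theorem AqSub.trans (h : AqSub l s A B) (h' : AqSub l s B D) (hs : Tendsto s l atTop) : AqSub l s A D := by
  intro ε hε
  have h1 := (h (ε / 2) (by positivity)).trans ((isBigO_refl (fun i => s i ^ (ε / 2)) l).mul (h' (ε / 2) (by positivity)))
  exact h1.congr' EventuallyEq.rfl ((aq_scale_mul_mul hs _ _ D).trans (by rw [add_halves]))

theorem AqPoly.trans_sub (h : AqPoly l s A B) (h' : AqSub l s B D) (hs : Tendsto s l atTop) : AqPoly l s A D := by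
  obtain ⟨c, hc, h⟩ := h
  refine ⟨c / 2, by positivity, ?_⟩
  have h1 := h.trans ((isBigO_refl (fun i => s i ^ (-c)) l).mul (h' (c / 2) (by positivity)))
  exact h1.congr' EventuallyEq.rfl ((aq_scale_mul_mul hs _ _ D).trans (by
    rw [show -c + c / 2 = -(c / 2) by ring]))

theorem AqPoly.sub_trans (h : AqSub l s A B) (h' : AqPoly l s B D) (hs : Tendsto s l atTop) : AqPoly l s A D := by
  obtain ⟨c, hc, h'⟩ := h'
  refine ⟨c / 2, by positivity, ?_⟩
  have h1 := (h (c / 2) (by positivity)).trans ((isBigO_refl (fun i => s i ^ (c / 2)) l).mul h')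
  exact h1.congr' EventuallyEq.rfl ((aq_scale_mul_mul hs _ _ D).trans (by
    rw [show c / 2 + -c = -(c / 2) by ring]))

theorem AqPoly.trans (h : AqPoly l s A B) (h' : AqPoly l s B D) (hs : Tendsto s l atTop) : AqPoly l s A D :=
  h.trans_O (h'.isBigO hs)

/-! ### algebra -/

theorem AqPoly.add (h : AqPoly l s A B) (h' : AqPoly l s A' B) (hs : Tendsto s l atTop) :
    AqPoly l s (fun i => A i + A' i) B := by
  obtain ⟨c, hc, h⟩ := h
  obtain ⟨c', hc', h'⟩ := h'
  exact ⟨min c c', lt_min hc hc', (AqPoly.exponent_le hs h (min_le_left _ _)).add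
    (AqPoly.exponent_le hs h' (min_le_right _ _))⟩

theorem AqSub.add (h : AqSub l s A B) (h' : AqSub l s A' B) : AqSub l s (fun i => A i + A' i) B :=
  fun ε hε => (h ε hε).add (h' ε hε)

theorem AqPoly.neg (h : AqPoly l s A B) : AqPoly l s (fun i => -A i) B := h.imp fun _ h => ⟨h.1, h.2.neg_left⟩

theorem AqSub.neg (h : AqSub l s A B) : AqSub l s (fun i => -A i) B := fun ε hε => (h ε hε).neg_left

theorem AqPoly.sub' (h : AqPoly l s A B) (h' : AqPoly l s A' B) (hs : Tendsto s l atTop) :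
    AqPoly l s (fun i => A i - A' i) B := by
  simpa [sub_eq_add_neg] using h.add h'.neg hs

theorem AqSub.sub' (h : AqSub l s A B) (h' : AqSub l s A' B) : AqSub l s (fun i => A i - A' i) B := by
  simpa [sub_eq_add_neg] using h.add h'.neg

theorem AqPoly.abs_left (h : AqPoly l s A B) : AqPoly l s (fun i => |A i|) B := h.imp fun _ h => ⟨h.1, h.2.abs_left⟩

theorem AqSub.abs_left (h : AqSub l s A B) : AqSub l s (fun i => |A i|) B := fun ε hε => (h ε hε).abs_left

theorem aq_poly_zero (l : Filter ι) (s B : ι → ℝ) : AqPoly l s (fun _ => 0) B := ⟨1, one_pos, isBigO_zero _ _⟩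

theorem aq_sub_zero (l : Filter ι) (s B : ι → ℝ) : AqSub l s (fun _ => 0) B := fun _ _ => isBigO_zero _ _

theorem AqPoly.sum {κ : Type*} (I : Finset κ) {F : κ → ι → ℝ} (h : ∀ k ∈ I, AqPoly l s (F k) B)
    (hs : Tendsto s l atTop) : AqPoly l s (fun i => ∑ k ∈ I, F k i) B := by
  classical
  induction I using Finset.induction_on with
  | empty => simpa using aq_poly_zero l s B
  | insert a I ha ih =>
    simp only [Finset.sum_insert ha]
    exact (h a (Finset.mem_insert_self a I)).add (ih fun k hk => h k (Finset.mem_insert_of_mem hk)) hs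

theorem AqSub.sum {κ : Type*} (I : Finset κ) {F : κ → ι → ℝ} (h : ∀ k ∈ I, AqSub l s (F k) B) :
    AqSub l s (fun i => ∑ k ∈ I, F k i) B :=
  fun ε hε => aq_O_sum I fun k hk => h k hk ε hε

theorem AqPoly.const_mul (h : AqPoly l s A B) (a : ℝ) : AqPoly l s (fun i => a * A i) B :=
  h.imp fun _ h => ⟨h.1, h.2.const_mul_left a⟩

theorem AqSub.const_mul (h : AqSub l s A B) (a : ℝ) : AqSub l s (fun i => a * A i) B :=
  fun ε hε => (h ε hε).const_mul_left a

/-- helper: `(s^a * B) * (s^b * B') = s^(a+b) * (B * B')` eventually -/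
theorem aq_scale_mul_mul_mul (hs : Tendsto s l atTop) (a b : ℝ) (B B' : ι → ℝ) :
    (fun i => s i ^ a * B i * (s i ^ b * B' i)) =ᶠ[l] fun i => s i ^ (a + b) * (B i * B' i) := by
  filter_upwards [aq_scale_pos hs] with i hi
  rw [Real.rpow_add hi]; ring

theorem AqSub.mul (h : AqSub l s A B) (h' : AqSub l s A' B') (hs : Tendsto s l atTop) :
    AqSub l s (fun i => A i * A' i) fun i => B i * B' i := by
  intro ε hε
  have h1 := (h (ε / 2) (by positivity)).mul (h' (ε / 2) (by positivity))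
  exact h1.congr' EventuallyEq.rfl ((aq_scale_mul_mul_mul hs _ _ B B').trans (by rw [add_halves]))

/-- a saving absorbs a subpower loss -/
theorem AqPoly.mul_sub (h : AqPoly l s A B) (h' : AqSub l s A' B') (hs : Tendsto s l atTop) :
    AqPoly l s (fun i => A i * A' i) fun i => B i * B' i := by
  obtain ⟨c, hc, h⟩ := h
  refine ⟨c / 2, by positivity, ?_⟩
  have h1 := h.mul (h' (c / 2) (by positivity))
  exact h1.congr' EventuallyEq.rfl ((aq_scale_mul_mul_mul hs _ _ B B').trans (by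
    rw [show -c + c / 2 = -(c / 2) by ring]))

theorem AqPoly.sub_mul (h : AqSub l s A B) (h' : AqPoly l s A' B') (hs : Tendsto s l atTop) :
    AqPoly l s (fun i => A i * A' i) fun i => B i * B' i := by
  have := h'.mul_sub h hs
  simpa [mul_comm] using this

theorem AqPoly.mul_O (h : AqPoly l s A B) (h' : A' =O[l] B') (hs : Tendsto s l atTop) :
    AqPoly l s (fun i => A i * A' i) fun i => B i * B' i :=
  h.mul_sub (aq_sub_of_O h' hs) hs

theorem AqPoly.O_mul (h : A =O[l] B) (h' : AqPoly l s A' B') (hs : Tendsto s l atTop) :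
    AqPoly l s (fun i => A i * A' i) fun i => B i * B' i :=
  AqPoly.sub_mul (aq_sub_of_O h hs) h' hs

theorem AqPoly.mul (h : AqPoly l s A B) (h' : AqPoly l s A' B') (hs : Tendsto s l atTop) :
    AqPoly l s (fun i => A i * A' i) fun i => B i * B' i :=
  h.mul_sub (h'.sub hs) hs

theorem AqSub.pow (h : AqSub l s A B) (hs : Tendsto s l atTop) (k : ℕ) :
    AqSub l s (fun i => A i ^ k) fun i => B i ^ k := by
  induction k with
  | zero => simpa using aq_sub_refl hs fun _ => (1 : ℝ)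
  | succ k ih => simpa [pow_succ] using ih.mul h hs

theorem AqPoly.pow (h : AqPoly l s A B) (hs : Tendsto s l atTop) {k : ℕ} (hk : k ≠ 0) :
    AqPoly l s (fun i => A i ^ k) fun i => B i ^ k := by
  obtain ⟨k, rfl⟩ := Nat.exists_eq_succ_of_ne_zero hk
  simpa [pow_succ] using AqPoly.sub_mul ((h.sub hs).pow hs k) h hs

/-- real powers (`A, B ≥ 0`) -/
theorem AqSub.rpow (h : AqSub l s A B) (hs : Tendsto s l atTop) (hB : ∀ᶠ i in l, 0 ≤ B i) {r : ℝ} (hr : 0 ≤ r) :
    AqSub l s (fun i => A i ^ r) fun i => B i ^ r := by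
  rcases hr.eq_or_lt with rfl | hr
  · simpa using aq_sub_refl hs fun _ => (1 : ℝ)
  intro ε hε
  have h0 : ∀ᶠ i in l, 0 ≤ s i ^ (ε / r) * B i := by
    filter_upwards [aq_scale_rpow_pos hs (ε / r), hB] with i h1 h2 using mul_nonneg h1.le h2
  have h1 := (h (ε / r) (by positivity)).rpow hr.le h0
  refine h1.congr' EventuallyEq.rfl ?_
  filter_upwards [aq_scale_pos hs, hB] with i h1 h2
  rw [Real.mul_rpow (Real.rpow_nonneg h1.le _) h2, ← Real.rpow_mul h1.le, div_mul_cancel₀ _ hr.ne']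

theorem AqPoly.rpow (h : AqPoly l s A B) (hs : Tendsto s l atTop) (hB : ∀ᶠ i in l, 0 ≤ B i) {r : ℝ} (hr : 0 < r) :
    AqPoly l s (fun i => A i ^ r) fun i => B i ^ r := by
  obtain ⟨c, hc, h⟩ := h
  refine ⟨c * r, by positivity, ?_⟩
  have h0 : ∀ᶠ i in l, 0 ≤ s i ^ (-c) * B i := by
    filter_upwards [aq_scale_rpow_pos hs (-c), hB] with i h1 h2 using mul_nonneg h1.le h2
  refine (h.rpow hr.le h0).congr' EventuallyEq.rfl ?_
  filter_upwards [aq_scale_pos hs, hB] with i h1 h2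
  rw [Real.mul_rpow (Real.rpow_nonneg h1.le _) h2, ← Real.rpow_mul h1.le, neg_mul]

theorem AqPoly.max (h : AqPoly l s A B) (h' : AqPoly l s A' B) (hs : Tendsto s l atTop) :
    AqPoly l s (fun i => max (A i) (A' i)) B := by
  obtain ⟨c, hc, h⟩ := h
  obtain ⟨c', hc', h'⟩ := h'
  exact ⟨min c c', lt_min hc hc', aq_O_max (AqPoly.exponent_le hs h (min_le_left _ _))
    (AqPoly.exponent_le hs h' (min_le_right _ _))⟩

theorem AqSub.max (h : AqSub l s A B) (h' : AqSub l s A' B) : AqSub l s (fun i => max (A i) (A' i)) B :=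
  fun ε hε => aq_O_max (h ε hε) (h' ε hε)

/-! ### powers of the scale: exponent bookkeeping -/

/-- `A ≲_∘ s^a B` and `a < b` give a saving against `s^b B` -/
theorem AqSub.poly_of_lt {a b : ℝ} (h : AqSub l s A fun i => s i ^ a * B i) (hab : a < b) (hs : Tendsto s l atTop) :
    AqPoly l s A fun i => s i ^ b * B i := by
  refine ⟨(b - a) / 2, by linarith, ?_⟩
  refine ((h ((b - a) / 2) (by linarith)).congr' EventuallyEq.rfl ((aq_scale_mul_mul hs _ _ B).trans ?_))
  refine ((aq_scale_mul_mul hs _ _ B).trans ?_).symm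
  rw [show -((b - a) / 2) + b = (b - a) / 2 + a by ring]

theorem aq_poly_of_O_lt {a b : ℝ} (h : A =O[l] fun i => s i ^ a * B i) (hab : a < b) (hs : Tendsto s l atTop) :
    AqPoly l s A fun i => s i ^ b * B i :=
  (aq_sub_of_O h hs).poly_of_lt hab hs

theorem aq_poly_scale {a b : ℝ} (hab : a < b) (hs : Tendsto s l atTop) :
    AqPoly l s (fun i => s i ^ a) fun i => s i ^ b := by
  have := aq_poly_of_O_lt (B := fun _ => 1) (A := fun i => s i ^ a) (by simpa using isBigO_refl _ l) hab hs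
  simpa using this

/-- unfolding a saving against `1` -/
theorem aq_poly_one_iff (hs : Tendsto s l atTop) :
    AqPoly l s A (fun _ => 1) ↔ ∃ c K : ℝ, 0 < c ∧ ∀ᶠ i in l, |A i| ≤ K * s i ^ (-c) := by
  constructor
  · intro h
    obtain ⟨c, K, hc, -, hb⟩ := h.bound hs (Eventually.of_forall fun _ => zero_le_one)
    exact ⟨c, K, hc, by simpa using hb⟩
  · rintro ⟨c, K, hc, hb⟩
    exact AqPoly.of_le hc (K := K) (by simpa using hb)

/-! ### change of scale -/

theorem AqPoly.scale_rpow {a : ℝ} (ha : 0 < a) (hs : Tendsto s l atTop) :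
    AqPoly l (fun i => s i ^ a) A B ↔ AqPoly l s A B := by
  have key : ∀ c : ℝ, (fun i => (s i ^ a) ^ c * B i) =ᶠ[l] fun i => s i ^ (a * c) * B i := by
    intro c
    filter_upwards [aq_scale_pos hs] with i hi
    rw [← Real.rpow_mul hi.le]
  constructor
  · rintro ⟨c, hc, h⟩
    exact ⟨a * c, by positivity, h.congr' EventuallyEq.rfl ((key (-c)).trans (by rw [mul_neg]))⟩
  · rintro ⟨c, hc, h⟩
    refine ⟨c / a, by positivity, h.congr' EventuallyEq.rfl ((key (-(c / a))).trans ?_).symm⟩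
    rw [show a * -(c / a) = -c by field_simp]

theorem AqSub.scale_rpow {a : ℝ} (ha : 0 < a) (hs : Tendsto s l atTop) :
    AqSub l (fun i => s i ^ a) A B ↔ AqSub l s A B := by
  have key : ∀ c : ℝ, (fun i => (s i ^ a) ^ c * B i) =ᶠ[l] fun i => s i ^ (a * c) * B i := by
    intro c
    filter_upwards [aq_scale_pos hs] with i hi
    rw [← Real.rpow_mul hi.le]
  constructor
  · intro h ε hε
    refine (h (ε / a) (by positivity)).congr' EventuallyEq.rfl ((key (ε / a)).trans ?_)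
    rw [show a * (ε / a) = ε by field_simp]
  · intro h ε hε
    exact (h (a * ε) (by positivity)).congr' EventuallyEq.rfl (key ε).symm

/-- comparable scales (`m ≍ N`) give the same relations -/
theorem aq_scale_rpow_O_of_theta {s' : ι → ℝ} (hs : Tendsto s l atTop) (hs' : Tendsto s' l atTop)
    (h : s =Θ[l] s') (c : ℝ) : (fun i => s i ^ c) =O[l] fun i => s' i ^ c := by
  rcases le_total 0 c with hc | hc
  · exact h.1.rpow hc ((aq_scale_pos hs').mono fun _ h => h.le)
  · have h1 := h.2.rpow (neg_nonneg.2 hc) ((aq_scale_pos hs).mono fun _ h => h.le)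
    -- `s'^(-c) ≲ s^(-c)`, invert
    obtain ⟨K, hK, hb⟩ := aq_O_bound h1 ((aq_scale_rpow_pos hs (-c)).mono fun _ h => h.le)
    refine aq_O_of_le K ?_
    filter_upwards [hb, aq_scale_pos hs, aq_scale_pos hs'] with i hi h1 h2
    rw [abs_of_pos (Real.rpow_pos_of_pos h2 _), Real.rpow_neg h2.le, Real.rpow_neg h1.le] at hi
    rw [abs_of_pos (Real.rpow_pos_of_pos h1 _)]
    have p1 := Real.rpow_pos_of_pos h1 c
    have p2 := Real.rpow_pos_of_pos h2 c
    rw [inv_le_comm₀ p2 (by positivity)] at hi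
    calc s i ^ c = K * (K * (s i ^ c)⁻¹)⁻¹ := by field_simp
      _ ≤ K * s' i ^ c := mul_le_mul_of_nonneg_left hi hK.le

theorem AqPoly.scale_theta {s' : ι → ℝ} (hs : Tendsto s l atTop) (hs' : Tendsto s' l atTop) (h : s =Θ[l] s')
    (hA : AqPoly l s A B) : AqPoly l s' A B :=
  hA.imp fun c hA => ⟨hA.1, hA.2.trans ((aq_scale_rpow_O_of_theta hs hs' h (-c)).mul (isBigO_refl B l))⟩

theorem AqSub.scale_theta {s' : ι → ℝ} (hs : Tendsto s l atTop) (hs' : Tendsto s' l atTop) (h : s =Θ[l] s')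
    (hA : AqSub l s A B) : AqSub l s' A B :=
  fun ε hε => (hA ε hε).trans ((aq_scale_rpow_O_of_theta hs hs' h ε).mul (isBigO_refl B l))

end Claimed.Agent.R286
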