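import Claimed.Agent.R286.SeqUltra

/-!
# Row 286 (S0533), unit SEQ, file 3: the three frames and the transfer between them      (helper298)

Paper free.   `ι` = index (`ℕ`, the size), `l` a filter on `ι`, `s : ι → ℝ` a scale with `Tendsto s l atTop`, `α` = the type of instances (all moving data: parameters, test points, minimisers),
`D i a` = "`a` is an admissible instance at the index `i`".

* frame UNIFORM    : `aqDom l D` = the filter on `ι × α` "`i → l`, uniformly over the admissible instances";  a relation along it IS the uniform statement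
                     (`aq_dom_eventually`, `aq_dom_O_iff`, `aq_dom_o_iff`, `aq_dom_poly_iff`, `aq_dom_sub_iff`).
* frame ULTRA      : `U : Ultrafilter ι`, `U ≤ l`, a family of instances `I : ι → α`, admissible along `U`  (the frame D1 of the PE ledger).
* TRANSFER         : a relation holds in the uniform frame iff it holds for every `(U, I)`   (`aq_frame_eventually`, `aq_frame_O`, `aq_frame_o`, `aq_frame_poly`, `aq_frame_sub`).
  WARNING: for `O`, `AqPoly`, `AqSub` the scale is needed (`Tendsto s l atTop`): along a PRINCIPAL ultrafilter the transfer is false (the constant may depend on the family `I`).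
-/

set_option autoImplicit false

namespace Claimed.Agent.R286

open Filter Topology Asymptotics

variable {ι α : Type*} {l : Filter ι} {s : ι → ℝ} {D : ι → α → Prop}

/-- "`i → l`, uniformly over the admissible instances" -/
def aqDom (l : Filter ι) (D : ι → α → Prop) : Filter (ι × α) := comap Prod.fst l ⊓ 𝓟 {p | D p.1 p.2}

theorem aq_dom_eventually {P : ι × α → Prop} :
    (∀ᶠ p in aqDom l D, P p) ↔ ∀ᶠ i in l, ∀ a, D i a → P (i, a) := by
  unfold aqDom
  rw [eventually_inf_principal, eventually_comap]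
  constructor
  · intro h
    filter_upwards [h] with i hi a ha using hi (i, a) rfl ha
  · intro h
    filter_upwards [h] with i hi p hp hD
    obtain ⟨j, a⟩ := p
    obtain rfl : j = i := hp
    exact hi a hD

theorem aq_dom_fst (l : Filter ι) (D : ι → α → Prop) : Tendsto Prod.fst (aqDom l D) l :=
  tendsto_comap.mono_left inf_le_left

theorem aq_dom_scale (hs : Tendsto s l atTop) (D : ι → α → Prop) : Tendsto (fun p : ι × α => s p.1) (aqDom l D) atTop :=
  hs.comp (aq_dom_fst l D)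

/-- a family of instances, admissible along `l'`, is a "sequence" in the uniform frame -/
theorem aq_dom_section {l' : Filter ι} (hl : l' ≤ l) {I : ι → α} (hI : ∀ᶠ i in l', D i (I i)) :
    Tendsto (fun i => (i, I i)) l' (aqDom l D) := by
  unfold aqDom
  rw [tendsto_inf, tendsto_comap_iff, tendsto_principal]
  exact ⟨hl, hI⟩

theorem aq_dom_O_iff {A B : ι × α → ℝ} :
    A =O[aqDom l D] B ↔ ∃ K : ℝ, ∀ᶠ i in l, ∀ a, D i a → |A (i, a)| ≤ K * |B (i, a)| := by
  rw [isBigO_iff]
  simp only [aq_dom_eventually, Real.norm_eq_abs]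

theorem aq_dom_o_iff {A B : ι × α → ℝ} :
    A =o[aqDom l D] B ↔ ∀ ε : ℝ, 0 < ε → ∀ᶠ i in l, ∀ a, D i a → |A (i, a)| ≤ ε * |B (i, a)| := by
  rw [isLittleO_iff]
  simp only [aq_dom_eventually, Real.norm_eq_abs]

theorem aq_dom_poly_iff {A B : ι × α → ℝ} :
    AqPoly (aqDom l D) (fun p => s p.1) A B ↔
      ∃ c : ℝ, 0 < c ∧ ∃ K : ℝ, ∀ᶠ i in l, ∀ a, D i a → |A (i, a)| ≤ K * |s i ^ (-c) * B (i, a)| := by
  unfold AqPoly
  simp only [aq_dom_O_iff]

theorem aq_dom_sub_iff {A B : ι × α → ℝ} :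
    AqSub (aqDom l D) (fun p => s p.1) A B ↔
      ∀ ε : ℝ, 0 < ε → ∃ K : ℝ, ∀ᶠ i in l, ∀ a, D i a → |A (i, a)| ≤ K * |s i ^ ε * B (i, a)| := by
  unfold AqSub
  simp only [aq_dom_O_iff]

/-- **the section lemma**: a decreasing family of sets, each frequent in the uniform frame, is eventually met by ONE family of instances along ONE ultrafilter -/
theorem aq_dom_exists_section (hs : Tendsto s l atTop) {S : ℕ → Set (ι × α)} (hS : Antitone S)
    (hf : ∀ n, ∃ᶠ p in aqDom l D, p ∈ S n) :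
    ∃ (U : Ultrafilter ι) (I : ι → α), (U : Filter ι) ≤ l ∧ (∀ᶠ i in (U : Filter ι), D i (I i)) ∧
      ∀ n, ∀ᶠ i in (U : Filter ι), (i, I i) ∈ S n := by
  classical
  -- projections of the bad sets
  let T : ℕ → Set ι := fun n => {i | ∃ a, D i a ∧ (i, a) ∈ S n}
  have hT : Antitone T := fun n m hnm i ⟨a, h1, h2⟩ => ⟨a, h1, hS hnm h2⟩
  have hTf : ∀ n, ∃ᶠ i in l, i ∈ T n := by
    intro n hn
    apply hf n
    rw [aq_dom_eventually]
    filter_upwards [hn] with i hi a ha hmem
    exact hi ⟨a, ha, hmem⟩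
  obtain ⟨U, hU, hTU⟩ := aq_exists_ultra_of_frequently hT hTf
  obtain ⟨i₀, a₀, -, -⟩ := (hTf 0).exists
  -- the best level available at `i` below the scale
  let lev : ι → ℕ := fun i => Nat.findGreatest (fun n => i ∈ T n) ⌊s i⌋₊
  let I : ι → α := fun i => if h : i ∈ T (lev i) then h.choose else a₀
  have key : ∀ n i, i ∈ T n → (n : ℝ) ≤ s i → D i (I i) ∧ (i, I i) ∈ S n := by
    intro n i hi hn
    have h1 : n ≤ ⌊s i⌋₊ := Nat.le_floor hn
    have h2 : n ≤ lev i := Nat.le_findGreatest h1 hi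
    have h3 : i ∈ T (lev i) := Nat.findGreatest_spec (P := fun n => i ∈ T n) h1 hi
    have h4 : I i = h3.choose := dif_pos h3
    rw [h4]
    exact ⟨h3.choose_spec.1, hS h2 h3.choose_spec.2⟩
  have hsU : Tendsto s (U : Filter ι) atTop := hs.mono_left hU
  refine ⟨U, I, hU, ?_, fun n => ?_⟩
  · filter_upwards [hTU 0, hsU.eventually_ge_atTop ((0 : ℕ) : ℝ)] with i h1 h2 using (key 0 i h1 h2).1
  · filter_upwards [hTU n, hsU.eventually_ge_atTop (n : ℝ)] with i h1 h2 using (key n i h1 h2).2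

/-! ## transfer -/

/-- no scale is needed for `∀ᶠ` -/
theorem aq_frame_eventually {P : ι → α → Prop}
    (h : ∀ (U : Ultrafilter ι) (I : ι → α), (U : Filter ι) ≤ l → (∀ᶠ i in (U : Filter ι), D i (I i)) →
      ∀ᶠ i in (U : Filter ι), P i (I i)) :
    ∀ᶠ i in l, ∀ a, D i a → P i a := by
  classical
  by_contra hc
  have hf : ∃ᶠ i in l, i ∈ {i | ∃ a, D i a ∧ ¬ P i a} := by
    refine (not_eventually.1 hc).mono fun i hi => ?_
    by_contra hn
    exact hi fun a ha => by_contra fun hP => hn ⟨a, ha, hP⟩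
  obtain ⟨U, hU, hSU⟩ := aq_exists_ultra_of_frequently (S := fun _ => {i | ∃ a, D i a ∧ ¬ P i a})
    (fun _ _ _ => le_rfl) (fun _ => hf)
  obtain ⟨i₀, a₀, -, -⟩ := hf.exists
  let I : ι → α := fun i => if h : ∃ a, D i a ∧ ¬ P i a then h.choose else a₀
  have hI : ∀ i, (∃ a, D i a ∧ ¬ P i a) → D i (I i) ∧ ¬ P i (I i) := by
    intro i hi
    have : I i = hi.choose := dif_pos hi
    rw [this]
    exact hi.choose_spec
  have hS0 : ∀ᶠ i in (U : Filter ι), ∃ a, D i a ∧ ¬ P i a := hSU 0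
  have h1 := h U I hU (hS0.mono fun i hi => (hI i hi).1)
  obtain ⟨i, h2, h3⟩ := (h1.and hS0).exists
  exact (hI i h3).2 h2

theorem aq_frame_O (hs : Tendsto s l atTop) {A B : ι → α → ℝ}
    (h : ∀ (U : Ultrafilter ι) (I : ι → α), (U : Filter ι) ≤ l → (∀ᶠ i in (U : Filter ι), D i (I i)) →
      (fun i => A i (I i)) =O[(U : Filter ι)] fun i => B i (I i)) :
    ∃ K : ℝ, ∀ᶠ i in l, ∀ a, D i a → |A i a| ≤ K * |B i a| := by
  have : (fun p : ι × α => A p.1 p.2) =O[aqDom l D] fun p => B p.1 p.2 := by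
    by_contra hc
    obtain ⟨S, hS, hf, hbad⟩ := aq_not_O_sets hc
    obtain ⟨U, I, hU, hD, hSU⟩ := aq_dom_exists_section hs hS hf
    exact hbad (map (fun i => (i, I i)) (U : Filter ι)) inferInstance hSU (isBigO_map.2 (h U I hU hD))
  exact aq_dom_O_iff.1 this

theorem aq_frame_o {A B : ι → α → ℝ}
    (h : ∀ (U : Ultrafilter ι) (I : ι → α), (U : Filter ι) ≤ l → (∀ᶠ i in (U : Filter ι), D i (I i)) →
      (fun i => A i (I i)) =o[(U : Filter ι)] fun i => B i (I i)) :
    ∀ ε : ℝ, 0 < ε → ∀ᶠ i in l, ∀ a, D i a → |A i a| ≤ ε * |B i a| := by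
  intro ε hε
  refine aq_frame_eventually fun U I hU hD => ?_
  simpa [Real.norm_eq_abs] using (isLittleO_iff.1 (h U I hU hD)) hε

theorem aq_frame_poly (hs : Tendsto s l atTop) {A B : ι → α → ℝ}
    (h : ∀ (U : Ultrafilter ι) (I : ι → α), (U : Filter ι) ≤ l → (∀ᶠ i in (U : Filter ι), D i (I i)) →
      AqPoly (U : Filter ι) s (fun i => A i (I i)) fun i => B i (I i)) :
    ∃ c : ℝ, 0 < c ∧ ∃ K : ℝ, ∀ᶠ i in l, ∀ a, D i a → |A i a| ≤ K * |s i ^ (-c) * B i a| := by
  have : AqPoly (aqDom l D) (fun p => s p.1) (fun p : ι × α => A p.1 p.2) fun p => B p.1 p.2 := by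
    by_contra hc
    obtain ⟨S, hS, hf, hbad⟩ := aq_not_poly_sets (aq_dom_scale hs D) hc
    obtain ⟨U, I, hU, hD, hSU⟩ := aq_dom_exists_section hs hS hf
    exact hbad (map (fun i => (i, I i)) (U : Filter ι)) inferInstance hSU (aq_poly_map.2 (h U I hU hD))
  exact aq_dom_poly_iff.1 this

theorem aq_frame_sub (hs : Tendsto s l atTop) {A B : ι → α → ℝ}
    (h : ∀ (U : Ultrafilter ι) (I : ι → α), (U : Filter ι) ≤ l → (∀ᶠ i in (U : Filter ι), D i (I i)) →
      AqSub (U : Filter ι) s (fun i => A i (I i)) fun i => B i (I i)) :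
    ∀ ε : ℝ, 0 < ε → ∃ K : ℝ, ∀ᶠ i in l, ∀ a, D i a → |A i a| ≤ K * |s i ^ ε * B i a| := by
  intro ε hε
  exact aq_frame_O hs (A := A) (B := fun i a => s i ^ ε * B i a) fun U I hU hD => h U I hU hD ε hε

/-- converse direction (use of a uniform statement inside the ultra frame) -/
theorem aq_frame_use_O {A B : ι → α → ℝ} {K : ℝ} (h : ∀ᶠ i in l, ∀ a, D i a → |A i a| ≤ K * |B i a|)
    {l' : Filter ι} (hl : l' ≤ l) {I : ι → α} (hI : ∀ᶠ i in l', D i (I i)) :
    (fun i => A i (I i)) =O[l'] fun i => B i (I i) := by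
  refine IsBigO.of_bound K ?_
  filter_upwards [hl h, hI] with i h1 h2
  simpa [Real.norm_eq_abs] using h1 _ h2

/-- the frame on `ℕ`: the identity is a scale -/
theorem aq_nat_scale : Tendsto (fun n : ℕ => (n : ℝ)) atTop atTop := tendsto_natCast_atTop_atTop

theorem aq_nat_scale_ultra {U : Ultrafilter ℕ} (hU : (U : Filter ℕ) ≤ atTop) :
    Tendsto (fun n : ℕ => (n : ℝ)) (U : Filter ℕ) atTop := aq_nat_scale.mono_left hU

end Claimed.Agent.R286
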